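import Vale.Agent.Lib.P063.Bonami

/-!
The block inequality: Fourier mass on sets which meet exactly one of many exchangeable blocks,
and meet it in few coordinates, is small.
-/

set_option autoImplicit false
set_option linter.unusedSectionVars false

namespace Vale.Agent.P063

open Finset

variable {ι : Type} [Fintype ι] [DecidableEq ι]

/-- Nonempty subsets. -/
def fam (X : Finset ι) : Finset (Finset ι) := X.powerset.filter fun T => T.Nonempty

/-- Nonempty subsets of cardinality at most `k`. -/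
def famk (X : Finset ι) (k : ℕ) : Finset (Finset ι) :=
  X.powerset.filter fun T => T.Nonempty ∧ T.card ≤ k

lemma mem_fam {X T : Finset ι} : T ∈ fam X ↔ T ⊆ X ∧ T.Nonempty := by
  simp [fam]

lemma mem_famk {X T : Finset ι} {k : ℕ} : T ∈ famk X k ↔ T ⊆ X ∧ T.Nonempty ∧ T.card ≤ k := by
  simp [famk]

/-- Low degree part of a block function. -/
lemma block_one {p : ℝ} (h0 : 0 < p) (h1 : p < 1) (G : (ι → Bool) → ℝ) (X : Finset ι) (k : ℕ)
    {δ : ℝ} (hδ : 0 ≤ δ) (hM : ∑ T ∈ fam X, fc p G T ^ 2 ≤ δ ^ 2) :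
    ∑ T ∈ famk X k, fc p G T ^ 2
      ≤ (2 / sd p) ^ k * δ * ex p (fun y => |∑ T ∈ fam X, fc p G T * chi p T y|) := by
  have hs := sd_pos h0 h1
  have hs2 := sd_le_half h0 h1
  have hK1 : 1 ≤ 2 / sd p := by rw [le_div_iff₀ hs]; linarith
  set K : ℝ := 2 / sd p with hK
  set g : (ι → Bool) → ℝ := fun y => ∑ T ∈ fam X, fc p G T * chi p T y with hg
  set h : (ι → Bool) → ℝ := fun y => ∑ T ∈ famk X k, fc p G T * chi p T y with hh
  set m : ℝ := ∑ T ∈ famk X k, fc p G T ^ 2 with hm
  have hm0 : 0 ≤ m := sum_nonneg fun T _ => sq_nonneg _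
  set N : ℝ := ex p (fun y => |g y|) with hN
  have hN0 : 0 ≤ N := ex_nonneg h0.le h1.le fun y => abs_nonneg _
  have hKk0 : 0 ≤ K ^ k := by positivity
  -- (i)
  have e1 : ex p (fun y => h y * g y) = m := by
    rw [plancherel h0 h1]
    have : ∀ U : Finset ι, fc p h U * fc p g U
        = if U ∈ famk X k then fc p G U ^ 2 else 0 := by
      intro U
      rw [hh, hg, fc_charSum h0 h1, fc_charSum h0 h1]
      by_cases hU : U ∈ famk X k
      · have hU2 : U ∈ fam X := by
          rw [mem_fam]; rw [mem_famk] at hU; exact ⟨hU.1, hU.2.1⟩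
        rw [if_pos hU, if_pos hU2, if_pos hU]; ring
      · rw [if_neg hU, if_neg hU]; ring
    rw [sum_congr rfl fun U _ => this U, ← sum_filter]
    congr 1
    ext U; simp
  -- (ii)
  have e2 : m ≤ ex p (fun y => Real.sqrt |g y| * (|h y| * Real.sqrt |g y|)) := by
    rw [← e1]
    apply ex_mono h0.le h1.le
    intro y
    have : Real.sqrt |g y| * (|h y| * Real.sqrt |g y|) = |h y * g y| := by
      rw [abs_mul]
      calc _ = |h y| * (Real.sqrt |g y| * Real.sqrt |g y|) := by ring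
        _ = _ := by rw [Real.mul_self_sqrt (abs_nonneg _)]
    rw [this]
    exact le_abs_self _
  have e3 : m ^ 2 ≤ N * ex p (fun y => h y ^ 2 * |g y|) := by
    have hcs := ex_mul_sq_le h0.le h1.le (fun y => Real.sqrt |g y|) (fun y => |h y| * Real.sqrt |g y|)
    have r1 : ∀ y, Real.sqrt |g y| ^ 2 = |g y| := fun y => Real.sq_sqrt (abs_nonneg _)
    have r2 : ∀ y, (|h y| * Real.sqrt |g y|) ^ 2 = h y ^ 2 * |g y| := by
      intro y
      rw [mul_pow, sq_abs, r1]
    simp only [r1, r2] at hcs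
    refine le_trans ?_ hcs
    exact pow_le_pow_left₀ hm0 e2 2
  -- (iv)
  set W : ℝ := ex p (fun y => h y ^ 2 * |g y|) with hW
  have hW0 : 0 ≤ W := ex_nonneg h0.le h1.le fun y => by positivity
  have e4 : W ^ 2 ≤ ex p (fun y => h y ^ 4) * δ ^ 2 := by
    have hcs := ex_mul_sq_le h0.le h1.le (fun y => h y ^ 2) (fun y => |g y|)
    have r1 : ∀ y, (h y ^ 2) ^ 2 = h y ^ 4 := fun y => by ring
    have r2 : ∀ y, |g y| ^ 2 = g y ^ 2 := fun y => sq_abs _
    simp only [r1, r2] at hcs
    refine hcs.trans (mul_le_mul_of_nonneg_left ?_ (ex_nonneg h0.le h1.le fun y => by positivity))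
    rw [hg, parseval_charSum h0 h1]
    exact hM
  have e5 : ex p (fun y => h y ^ 4) ≤ (K ^ k * m) ^ 2 := by
    have hb := bonami h0 h1 X (fun S => if S ∈ famk X k then fc p G S else 0)
    have hsub : famk X k ⊆ X.powerset := filter_subset _ _
    have r1 : ∀ y : ι → Bool, ∑ S ∈ X.powerset, (if S ∈ famk X k then fc p G S else 0) * chi p S y
        = h y := by
      intro y
      rw [hh]
      simp only [ite_mul, zero_mul]
      rw [← sum_filter]
      congr 1
      ext S
      simp only [mem_filter]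
      exact ⟨fun h => h.2, fun h => ⟨hsub h, h⟩⟩
    simp only [r1] at hb
    refine hb.trans ?_
    apply pow_le_pow_left₀
    · exact sum_nonneg fun S _ => by positivity
    · rw [hm, mul_sum]
      have r2 : ∑ S ∈ X.powerset, K ^ S.card * (if S ∈ famk X k then fc p G S else 0) ^ 2
          = ∑ S ∈ famk X k, K ^ S.card * fc p G S ^ 2 := by
        have : ∀ S ∈ X.powerset, K ^ S.card * (if S ∈ famk X k then fc p G S else 0) ^ 2
            = if S ∈ famk X k then K ^ S.card * fc p G S ^ 2 else 0 := by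
          intro S _
          split_ifs <;> ring
        rw [sum_congr rfl this, ← sum_filter]
        congr 1
        ext S
        simp only [mem_filter]
        exact ⟨fun h => h.2, fun h => ⟨hsub h, h⟩⟩
      rw [r2]
      apply sum_le_sum
      intro S hS
      apply mul_le_mul_of_nonneg_right _ (sq_nonneg _)
      exact pow_le_pow_right₀ hK1 (mem_famk.mp hS).2.2
  have e6 : W ≤ K ^ k * m * δ := by
    have : W ^ 2 ≤ (K ^ k * m * δ) ^ 2 := by
      refine e4.trans ?_
      rw [mul_pow (K ^ k * m) δ]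
      exact mul_le_mul_of_nonneg_right e5 (sq_nonneg _)
    exact (pow_le_pow_iff_left₀ hW0 (by positivity) two_ne_zero).mp this
  rcases hm0.lt_or_eq with hmpos | hmz
  · have : m * m ≤ (K ^ k * δ * N) * m := by
      calc m * m = m ^ 2 := by ring
        _ ≤ N * W := e3
        _ ≤ N * (K ^ k * m * δ) := mul_le_mul_of_nonneg_left e6 hN0
        _ = _ := by ring
    exact le_of_mul_le_mul_right this hmpos
  · rw [← hmz]
    positivity

/-- The block function is bounded in mean by the corresponding variation. -/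
lemma ex_abs_block_le {p : ℝ} (h0 : 0 < p) (h1 : p < 1) (G : (ι → Bool) → ℝ) (X : Finset ι) :
    ex p (fun y => |∑ T ∈ fam X, fc p G T * chi p T y|)
      ≤ ex p (fun y => |G y - cond p Xᶜ G y|) := by
  set H : (ι → Bool) → ℝ := fun z => G z - cond p Xᶜ G z with hH
  have hfH : ∀ S, fc p H S = fc p G S - (if S ⊆ Xᶜ then fc p G S else 0) := by
    intro S
    rw [hH, fc_sub]
    congr 1
    exact fc_cond h0 h1 Xᶜ G S
  have key : ∀ y, ∑ T ∈ fam X, fc p G T * chi p T y = cond p X H y := by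
    intro y
    rw [cond_eq h0 h1]
    unfold fam
    rw [sum_filter]
    apply sum_congr rfl
    intro S hS
    have hSX := mem_powerset.mp hS
    rw [hfH]
    by_cases hne : S.Nonempty
    · have : ¬ S ⊆ Xᶜ := by
        intro h
        obtain ⟨i, hi⟩ := hne
        exact (mem_compl.mp (h hi)) (hSX hi)
      rw [if_pos hne, if_neg this, sub_zero]
    · have hS0 : S = ∅ := not_nonempty_iff_eq_empty.mp hne
      rw [if_neg hne, hS0, if_pos (empty_subset _), sub_self, zero_mul]
  have : ∀ y, |∑ T ∈ fam X, fc p G T * chi p T y| ≤ cond p X (fun z => |H z|) y := by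
    intro y
    rw [key]
    exact abs_ex_le h0.le h1.le _
  refine (ex_mono h0.le h1.le this).trans (le_of_eq ?_)
  exact ex_cond p X (fun z => |H z|)

/-- The `L^1` size of the variation of a Boolean function. -/
lemma ex_abs_variation {p : ℝ} (h0 : 0 < p) (h1 : p < 1) (F : (ι → Bool) → ℝ)
    (hF : ∀ x, F x = 0 ∨ F x = 1) (B : Finset ι) :
    ex p (fun y => |F y - cond p B F y|)
      = 2 * ∑ S ∈ univ.filter (fun S : Finset ι => ¬ S ⊆ B), fc p F S ^ 2 := by
  have hF0 : ∀ x, 0 ≤ F x := fun x => by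
    rcases hF x with h | h
    · rw [h]
    · rw [h]; norm_num
  have hF1 : ∀ x, F x ≤ 1 := fun x => by
    rcases hF x with h | h
    · rw [h]; norm_num
    · rw [h]
  set c : (ι → Bool) → ℝ := cond p B F with hc
  have hc0 : ∀ x, 0 ≤ c x := fun x => ex_nonneg h0.le h1.le fun y => hF0 _
  have hc1 : ∀ x, c x ≤ 1 := by
    intro x
    have := ex_mono h0.le h1.le (F := fun y => F (mix B x y)) (G := fun _ => 1) (fun y => hF1 _)
    rw [ex_const] at this
    exact this
  have e1 : ∀ y, |F y - c y| = F y + c y - 2 * (F y * c y) := by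
    intro y
    rcases hF y with h | h
    · rw [h, zero_sub, abs_neg, abs_of_nonneg (hc0 y)]; ring
    · rw [h, abs_of_nonneg (by linarith [hc1 y])]; ring
  have e2 : ∀ y, (F y - c y) ^ 2 = F y - 2 * (F y * c y) + c y * c y := by
    intro y
    rcases hF y with h | h
    · rw [h]; ring
    · rw [h]; ring
  have e3 : ex p (fun y => F y * c y) = ex p (fun y => c y * c y) := by
    rw [plancherel h0 h1, plancherel h0 h1]
    apply sum_congr rfl
    intro S _
    rw [hc, fc_cond h0 h1]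
    split_ifs <;> ring
  have e4 : ex p c = ex p F := ex_cond p B F
  have e5 : ex p (fun y => |F y - c y|) = 2 * ex p (fun y => (F y - c y) ^ 2) := by
    rw [ex_congr e1, ex_congr e2, ex_add, ex_sub, ex_sub, ex_const_mul, ex_add, e3]
    have : ex p (fun x => c x) = ex p F := e4
    rw [this]; ring
  rw [e5, parseval h0 h1]
  congr 1
  rw [sum_filter]
  apply sum_congr rfl
  intro S _
  rw [fc_sub]
  have : fc p (fun x => c x) S = if S ⊆ B then fc p F S else 0 := fc_cond h0 h1 B F S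
  rw [this]
  by_cases h : S ⊆ B
  · rw [if_pos h, if_neg (not_not.mpr h)]; ring
  · rw [if_neg h, if_pos h]; ring

lemma cond_slice (p : ℝ) (Z X : Finset ι) (hZX : Disjoint Z X) (F : (ι → Bool) → ℝ)
    (x y : ι → Bool) :
    cond p Xᶜ (fun w => F (mix Z x w)) y = cond p Xᶜ F (mix Z x y) := by
  unfold cond
  apply ex_congr
  intro w
  change F (mix Z x (mix Xᶜ y w)) = F (mix Xᶜ (mix Z x y) w)
  congr 1
  funext i
  by_cases hZ : i ∈ Z
  · have hX : i ∈ Xᶜ := mem_compl.mpr (fun h => (Finset.disjoint_left.mp hZX) hZ h)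
    rw [mix_mem hZ, mix_mem hX, mix_mem hZ]
  · by_cases hX : i ∈ Xᶜ
    · rw [mix_notMem hZ, mix_mem hX, mix_mem hX, mix_notMem hZ]
    · rw [mix_notMem hZ, mix_notMem hX, mix_notMem hX]

/-- The block inequality. -/
theorem block_main {p : ℝ} (h0 : 0 < p) (h1 : p < 1) {α : Type} [DecidableEq α] (A : Finset α)
    (Z : Finset ι) (X : α → Finset ι) (hZX : ∀ a ∈ A, Disjoint Z (X a))
    (hXX : ∀ a ∈ A, ∀ b ∈ A, a ≠ b → Disjoint (X a) (X b)) (F : (ι → Bool) → ℝ)
    (hF : ∀ x, F x = 0 ∨ F x = 1) (k : ℕ) {δ : ℝ} (hδ : 0 ≤ δ)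
    (hM : ∀ a ∈ A, ∀ x, ∑ T ∈ fam (X a), fc p (fun y => F (mix Z x y)) T ^ 2 ≤ δ ^ 2) :
    ∑ a ∈ A, ∑ T ∈ famk (X a) k, ∑ S ∈ Z.powerset, fc p F (S ∪ T) ^ 2
      ≤ 2 * (2 / sd p) ^ k * δ * ∑ S : Finset ι, (S.card : ℝ) * fc p F S ^ 2 := by
  have hs := sd_pos h0 h1
  have hKk0 : 0 ≤ (2 / sd p) ^ k := by positivity
  have step : ∀ a ∈ A, ∑ T ∈ famk (X a) k, ∑ S ∈ Z.powerset, fc p F (S ∪ T) ^ 2
      ≤ 2 * (2 / sd p) ^ k * δ * ∑ S ∈ univ.filter (fun S : Finset ι => ¬ S ⊆ (X a)ᶜ), fc p F S ^ 2 := by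
    intro a ha
    have e1 : ∑ T ∈ famk (X a) k, ∑ S ∈ Z.powerset, fc p F (S ∪ T) ^ 2
        = ex p (fun x => ∑ T ∈ famk (X a) k, fc p (fun y => F (mix Z x y)) T ^ 2) := by
      rw [ex_sum]
      apply sum_congr rfl
      intro T hT
      have hZT : Disjoint Z T := Finset.disjoint_of_subset_right (mem_famk.mp hT).1 (hZX a ha)
      exact (ex_fc_slice_sq h0 h1 Z T hZT F).symm
    rw [e1]
    have e2 : ∀ x, ∑ T ∈ famk (X a) k, fc p (fun y => F (mix Z x y)) T ^ 2
        ≤ ((2 / sd p) ^ k * δ) * ex p (fun y => |(fun z => |F z - cond p (X a)ᶜ F z|) (mix Z x y)|) := by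
      intro x
      refine (block_one h0 h1 (fun y => F (mix Z x y)) (X a) k hδ (hM a ha x)).trans ?_
      apply mul_le_mul_of_nonneg_left _ (mul_nonneg hKk0 hδ)
      refine (ex_abs_block_le h0 h1 _ _).trans (le_of_eq ?_)
      apply ex_congr
      intro y
      rw [cond_slice p Z (X a) (hZX a ha), abs_abs]
    refine (ex_mono h0.le h1.le e2).trans ?_
    rw [ex_const_mul]
    have e3 := ex_mix p Z (fun z => |(fun z => |F z - cond p (X a)ᶜ F z|) z|)
    have e4 : ex p (fun z => |(fun z => |F z - cond p (X a)ᶜ F z|) z|)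
        = 2 * ∑ S ∈ univ.filter (fun S : Finset ι => ¬ S ⊆ (X a)ᶜ), fc p F S ^ 2 := by
      rw [← ex_abs_variation h0 h1 F hF]
      apply ex_congr
      intro z
      rw [abs_abs]
    rw [e3, e4]
    apply le_of_eq; ring
  refine (sum_le_sum step).trans ?_
  rw [← mul_sum]
  apply mul_le_mul_of_nonneg_left _ (by positivity)
  simp only [sum_filter]
  rw [sum_comm]
  apply sum_le_sum
  intro S _
  have e5 : ∑ a ∈ A, (if ¬ S ⊆ (X a)ᶜ then fc p F S ^ 2 else 0)
      = ((A.filter (fun a => ¬ S ⊆ (X a)ᶜ)).card : ℝ) * fc p F S ^ 2 := by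
    rw [← sum_filter, sum_const, nsmul_eq_mul]
  rw [e5]
  apply mul_le_mul_of_nonneg_right _ (sq_nonneg _)
  have hex : ∀ a ∈ A.filter (fun a => ¬ S ⊆ (X a)ᶜ), ∃ i, i ∈ S ∧ i ∈ X a := by
    intro a ha
    have h2 := (mem_filter.mp ha).2
    rw [not_subset] at h2
    obtain ⟨i, hi, hi2⟩ := h2
    exact ⟨i, hi, by simpa using hi2⟩
  have : (A.filter (fun a => ¬ S ⊆ (X a)ᶜ)).card ≤ S.card := by
    rcases (A.filter (fun a => ¬ S ⊆ (X a)ᶜ)).eq_empty_or_nonempty with hemp | ⟨a0, ha0⟩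
    · rw [hemp]; simp
    obtain ⟨i0, _, _⟩ := hex a0 ha0
    haveI : Nonempty ι := ⟨i0⟩
    choose! f hf using hex
    apply card_le_card_of_injOn f
    · intro a ha
      exact (hf a ha).1
    · intro a ha b hb hab
      by_contra hne
      have h2 := hXX a (mem_filter.mp ha).1 b (mem_filter.mp hb).1 hne
      exact (Finset.disjoint_left.mp h2) (hf a ha).2 (hab ▸ (hf b hb).2)
  exact_mod_cast this

/-- Reindexing a point of the cube. -/
def reidx (τ : Equiv.Perm ι) : (ι → Bool) ≃ (ι → Bool) where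
  toFun x := fun i => x (τ i)
  invFun x := fun i => x (τ.symm i)
  left_inv := by intro x; funext i; simp
  right_inv := by intro x; funext i; simp

lemma wt_reidx (p : ℝ) (τ : Equiv.Perm ι) (x : ι → Bool) :
    wt p (fun i => x (τ i)) = wt p x := by
  unfold wt
  exact Equiv.prod_comp τ (fun i => bw p (x i))

lemma chi_map (p : ℝ) (τ : Equiv.Perm ι) (T : Finset ι) (x : ι → Bool) :
    chi p (T.map τ.toEmbedding) x = chi p T (fun i => x (τ i)) := by
  unfold chi
  rw [prod_map]
  rfl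

lemma fc_map (p : ℝ) (τ : Equiv.Perm ι) (G : (ι → Bool) → ℝ)
    (hG : ∀ x, G (fun i => x (τ i)) = G x) (T : Finset ι) :
    fc p G (T.map τ.toEmbedding) = fc p G T := by
  unfold fc ex
  rw [← Equiv.sum_comp (reidx τ) (fun x => wt p x * (G x * chi p T x))]
  apply sum_congr rfl
  intro x _
  change wt p x * (G x * chi p (T.map τ.toEmbedding) x)
    = wt p (fun i => x (τ i)) * (G (fun i => x (τ i)) * chi p T (fun i => x (τ i)))
  rw [wt_reidx, hG, chi_map]

/-- The mass of a block is at most the inverse of the number of exchangeable blocks. -/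
theorem block_mass {p : ℝ} (h0 : 0 < p) (h1 : p < 1) {α : Type} [DecidableEq α] (A : Finset α)
    (X : α → Finset ι) (hXX : ∀ a ∈ A, ∀ b ∈ A, a ≠ b → Disjoint (X a) (X b))
    (G : (ι → Bool) → ℝ) (hG : ∀ x, G x ^ 2 ≤ 1)
    (hsym : ∀ a ∈ A, ∀ b ∈ A, ∃ τ : Equiv.Perm ι, (X a).map τ.toEmbedding = X b ∧
      ∀ x, G (fun i => x (τ i)) = G x) (a : α) (ha : a ∈ A) :
    (A.card : ℝ) * ∑ T ∈ fam (X a), fc p G T ^ 2 ≤ 1 := by
  have e1 : ∀ b ∈ A, ∑ T ∈ fam (X b), fc p G T ^ 2 = ∑ T ∈ fam (X a), fc p G T ^ 2 := by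
    intro b hb
    obtain ⟨τ, hτ, hGτ⟩ := hsym a ha b hb
    symm
    apply sum_nbij (fun T => T.map τ.toEmbedding)
    · intro T hT
      rw [mem_fam] at hT ⊢
      rw [← hτ]
      exact ⟨map_subset_map.mpr hT.1, hT.2.map⟩
    · intro T _ T' _ h
      exact map_injective _ h
    · intro T hT
      have hT' := mem_fam.mp hT
      refine ⟨T.map τ.symm.toEmbedding, ?_, ?_⟩
      · apply mem_fam.mpr
        refine ⟨?_, hT'.2.map⟩
        have h2 := map_subset_map (f := τ.symm.toEmbedding) |>.mpr hT'.1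
        rw [← hτ, map_map] at h2
        have h3 : τ.toEmbedding.trans τ.symm.toEmbedding = Function.Embedding.refl ι := by
          ext i; simp
        rw [h3, map_refl] at h2
        exact h2
      · simp only [map_map]
        have h3 : τ.symm.toEmbedding.trans τ.toEmbedding = Function.Embedding.refl ι := by
          ext i; simp
        rw [h3, map_refl]
    · intro T _
      rw [fc_map p τ G hGτ]
  have e2 : (A.card : ℝ) * ∑ T ∈ fam (X a), fc p G T ^ 2
      = ∑ b ∈ A, ∑ T ∈ fam (X b), fc p G T ^ 2 := by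
    rw [sum_congr rfl e1, sum_const, nsmul_eq_mul]
  rw [e2, ← sum_biUnion]
  · calc ∑ T ∈ A.biUnion (fun b => fam (X b)), fc p G T ^ 2
        ≤ ∑ T : Finset ι, fc p G T ^ 2 :=
          sum_le_sum_of_subset_of_nonneg (subset_univ _) fun T _ _ => sq_nonneg _
      _ = ex p (fun x => G x ^ 2) := (parseval h0 h1 G).symm
      _ ≤ ex p (fun _ => 1) := ex_mono h0.le h1.le hG
      _ = 1 := ex_const p 1
  · intro b hb c hc hbc
    rw [Function.onFun, Finset.disjoint_left]
    intro T hT hT'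
    rw [mem_fam] at hT hT'
    obtain ⟨i, hi⟩ := hT.2
    exact (Finset.disjoint_left.mp (hXX b hb c hc hbc)) (hT.1 hi) (hT'.1 hi)

end Vale.Agent.P063
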