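import Vale.Agent.Lib.P063.Fourier

/-!
Mixing of coordinates, conditional expectations and the biased Bonami inequality.
-/

set_option autoImplicit false
set_option linter.unusedSectionVars false

namespace Vale.Agent.P063

open Finset

variable {ι : Type} [Fintype ι] [DecidableEq ι]

/-- The point which agrees with `x` on `B` and with `y` off `B`. -/
def mix (B : Finset ι) (x y : ι → Bool) : ι → Bool := fun i => if i ∈ B then x i else y i

lemma mix_mem {B : Finset ι} {i : ι} (h : i ∈ B) (x y : ι → Bool) : mix B x y i = x i := by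
  simp [mix, h]

lemma mix_notMem {B : Finset ι} {i : ι} (h : i ∉ B) (x y : ι → Bool) : mix B x y i = y i := by
  simp [mix, h]

/-- The swap of the coordinates in `B` as a permutation of pairs of points. -/
def mixEquiv (B : Finset ι) : ((ι → Bool) × (ι → Bool)) ≃ ((ι → Bool) × (ι → Bool)) where
  toFun q := (mix B q.1 q.2, mix B q.2 q.1)
  invFun q := (mix B q.1 q.2, mix B q.2 q.1)
  left_inv := by
    rintro ⟨x, y⟩
    ext i
    · by_cases h : i ∈ B <;> simp [mix, h]
    · by_cases h : i ∈ B <;> simp [mix, h]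
  right_inv := by
    rintro ⟨x, y⟩
    ext i
    · by_cases h : i ∈ B <;> simp [mix, h]
    · by_cases h : i ∈ B <;> simp [mix, h]

lemma wt_mix (p : ℝ) (B : Finset ι) (x y : ι → Bool) :
    wt p (mix B x y) * wt p (mix B y x) = wt p x * wt p y := by
  unfold wt
  rw [← prod_mul_distrib, ← prod_mul_distrib]
  apply prod_congr rfl
  intro i _
  by_cases h : i ∈ B
  · simp [mix, h]
  · simp only [mix, h, if_false]; ring

/-- Mixing two independent points gives a random point with the same law. -/
lemma ex_mix (p : ℝ) (B : Finset ι) (G : (ι → Bool) → ℝ) :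
    ex p (fun x => ex p (fun y => G (mix B x y))) = ex p G := by
  have h1 : ex p (fun x => ex p (fun y => G (mix B x y)))
      = ∑ q : (ι → Bool) × (ι → Bool), wt p q.1 * wt p q.2 * G (mix B q.1 q.2) := by
    rw [Fintype.sum_prod_type]
    unfold ex
    apply sum_congr rfl
    intro x _
    rw [mul_sum]
    apply sum_congr rfl
    intro y _
    ring
  have h2 : ∑ q : (ι → Bool) × (ι → Bool), wt p q.1 * wt p q.2 * G (mix B q.1 q.2)
      = ∑ q : (ι → Bool) × (ι → Bool), wt p q.1 * wt p q.2 * G q.1 := by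
    rw [← Equiv.sum_comp (mixEquiv B) (fun q : (ι → Bool) × (ι → Bool) => wt p q.1 * wt p q.2 * G q.1)]
    apply sum_congr rfl
    intro q _
    change _ = wt p (mix B q.1 q.2) * wt p (mix B q.2 q.1) * G (mix B q.1 q.2)
    rw [wt_mix]
  have h3 : ∑ q : (ι → Bool) × (ι → Bool), wt p q.1 * wt p q.2 * G q.1 = ex p G := by
    rw [Fintype.sum_prod_type]
    have hone : ∑ y : ι → Bool, wt p y = 1 := by
      have := ex_const (ι := ι) p 1
      simpa [ex] using this
    unfold ex
    apply sum_congr rfl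
    intro x _
    calc ∑ y, wt p x * wt p y * G x = wt p x * G x * ∑ y : ι → Bool, wt p y := by
          rw [mul_sum]; apply sum_congr rfl; intro y _; ring
      _ = wt p x * G x := by rw [hone, mul_one]
  rw [h1, h2, h3]

/-- Independence of disjoint sets of coordinates. -/
lemma ex_indep (p : ℝ) (B : Finset ι) (G H : (ι → Bool) → ℝ) (hG : ∀ x y, G (mix B x y) = G x)
    (hH : ∀ x y, H (mix B x y) = H y) :
    ex p (fun x => G x * H x) = ex p G * ex p H := by
  rw [← ex_mix p B]
  have : ∀ x, ex p (fun y => G (mix B x y) * H (mix B x y)) = G x * ex p H := by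
    intro x
    rw [← ex_const_mul]
    apply ex_congr
    intro y
    rw [hG, hH]
  rw [ex_congr this, ex_mul_const]

/-- Expectation of a function of one bit. -/
lemma ex_bit (p : ℝ) (i : ι) (h : Bool → ℝ) :
    ex p (fun x => h (x i)) = p * h true + (1 - p) * h false := by
  have e : ∀ x : ι → Bool, h (x i) = ∏ j, (if j = i then h (x j) else 1) := by
    intro x
    rw [Finset.prod_ite_eq' univ i (fun j => h (x j))]
    simp
  rw [ex_congr e]
  refine (ex_prod p (fun j b => if j = i then h b else 1)).trans ?_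
  rw [Finset.prod_eq_single i]
  · simp
  · intro j _ hj
    simp only [hj, if_false]; ring
  · intro hi; exact absurd (mem_univ i) hi

lemma chi_mix (p : ℝ) (B S : Finset ι) (x y : ι → Bool) :
    chi p S (mix B x y) = chi p (S ∩ B) x * chi p (S \ B) y := by
  unfold chi
  rw [← Finset.prod_inter_mul_prod_sdiff S B (fun i => ph p (mix B x y i))]
  congr 1
  · apply prod_congr rfl
    intro i hi
    rw [mix_mem (mem_inter.mp hi).2]
  · apply prod_congr rfl
    intro i hi
    rw [mix_notMem (mem_sdiff.mp hi).2]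

/-- Averaging over the coordinates outside `B`. -/
noncomputable def cond (p : ℝ) (B : Finset ι) (F : (ι → Bool) → ℝ) (x : ι → Bool) : ℝ :=
  ex p (fun y => F (mix B x y))

lemma ex_cond (p : ℝ) (B : Finset ι) (F : (ι → Bool) → ℝ) : ex p (cond p B F) = ex p F :=
  ex_mix p B F

lemma cond_eq {p : ℝ} (h0 : 0 < p) (h1 : p < 1) (B : Finset ι) (F : (ι → Bool) → ℝ)
    (x : ι → Bool) : cond p B F x = ∑ S ∈ B.powerset, fc p F S * chi p S x := by
  unfold cond
  have e : ∀ y, F (mix B x y)
      = ∑ S : Finset ι, (fc p F S * chi p (S ∩ B) x) * chi p (S \ B) y := by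
    intro y
    rw [fourier_inversion h0 h1 F (mix B x y)]
    apply sum_congr rfl
    intro S _
    rw [chi_mix]; ring
  rw [ex_congr e, ex_sum]
  simp only [ex_const_mul, ex_chi h0 h1]
  have e2 : ∀ S : Finset ι, fc p F S * chi p (S ∩ B) x * (if S \ B = ∅ then (1:ℝ) else 0)
      = if S ∈ B.powerset then fc p F S * chi p S x else 0 := by
    intro S
    by_cases hS : S ⊆ B
    · have h2 : S \ B = ∅ := sdiff_eq_empty_iff_subset.mpr hS
      rw [if_pos h2, if_pos (mem_powerset.mpr hS), inter_eq_left.mpr hS, mul_one]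
    · have h2 : ¬ S \ B = ∅ := fun h => hS (sdiff_eq_empty_iff_subset.mp h)
      rw [if_neg h2, if_neg (fun h => hS (mem_powerset.mp h)), mul_zero]
  rw [sum_congr rfl fun S _ => e2 S]
  rw [← sum_filter]
  congr 1
  ext S; simp

lemma fc_cond {p : ℝ} (h0 : 0 < p) (h1 : p < 1) (B : Finset ι) (F : (ι → Bool) → ℝ)
    (S : Finset ι) : fc p (cond p B F) S = if S ⊆ B then fc p F S else 0 := by
  have : cond p B F = fun x => ∑ S ∈ B.powerset, fc p F S * chi p S x :=
    funext fun x => cond_eq h0 h1 B F x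
  rw [this, fc_charSum h0 h1]
  simp only [mem_powerset]

/-- The coefficients of a slice. -/
lemma fc_slice {p : ℝ} (h0 : 0 < p) (h1 : p < 1) (B T : Finset ι) (hT : Disjoint B T)
    (F : (ι → Bool) → ℝ) (x : ι → Bool) :
    fc p (fun y => F (mix B x y)) T = ∑ S ∈ B.powerset, fc p F (S ∪ T) * chi p S x := by
  unfold fc
  have e : ∀ y, F (mix B x y) * chi p T y
      = ∑ U : Finset ι, (fc p F U * chi p (U ∩ B) x) * (chi p (U \ B) y * chi p T y) := by
    intro y
    rw [fourier_inversion h0 h1 F (mix B x y), sum_mul]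
    apply sum_congr rfl
    intro U _
    rw [chi_mix]; ring
  rw [ex_congr e, ex_sum]
  simp only [ex_const_mul, ex_chi_mul_chi h0 h1, mul_ite, mul_one, mul_zero]
  rw [← sum_filter]
  change ∑ U ∈ univ.filter (fun U => U \ B = T), fc p F U * chi p (U ∩ B) x
      = ∑ S ∈ B.powerset, fc p F (S ∪ T) * chi p S x
  symm
  apply sum_nbij' (fun S => S ∪ T) (fun U => U ∩ B)
  · intro S hS
    rw [mem_filter]
    refine ⟨mem_univ _, ?_⟩
    have hSB := mem_powerset.mp hS
    ext i
    simp only [mem_sdiff, mem_union]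
    constructor
    · rintro ⟨h | h, h'⟩
      · exact absurd (hSB h) h'
      · exact h
    · intro h
      exact ⟨Or.inr h, fun h' => (Finset.disjoint_left.mp hT) h' h⟩
  · intro U _
    exact mem_powerset.mpr inter_subset_right
  · intro S hS
    have hSB := mem_powerset.mp hS
    ext i
    simp only [mem_inter, mem_union]
    constructor
    · rintro ⟨h | h, h'⟩
      · exact h
      · exact absurd h ((Finset.disjoint_left.mp hT) h')
    · intro h
      exact ⟨Or.inl h, hSB h⟩
  · intro U hU
    have h := (mem_filter.mp hU).2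
    rw [← h]
    ext i
    simp only [mem_union, mem_inter, mem_sdiff]
    tauto
  · intro S hS
    have hSB := mem_powerset.mp hS
    have : (S ∪ T) ∩ B = S := by
      ext i
      simp only [mem_inter, mem_union]
      constructor
      · rintro ⟨h | h, h'⟩
        · exact h
        · exact absurd h ((Finset.disjoint_left.mp hT) h')
      · intro h
        exact ⟨Or.inl h, hSB h⟩
    rw [this]

/-- The mean square of a coefficient of a slice. -/
lemma ex_fc_slice_sq {p : ℝ} (h0 : 0 < p) (h1 : p < 1) (B T : Finset ι) (hT : Disjoint B T)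
    (F : (ι → Bool) → ℝ) :
    ex p (fun x => fc p (fun y => F (mix B x y)) T ^ 2)
      = ∑ S ∈ B.powerset, fc p F (S ∪ T) ^ 2 := by
  rw [ex_congr (fun x => by rw [fc_slice h0 h1 B T hT F x])]
  exact parseval_charSum h0 h1 B.powerset (fun S => fc p F (S ∪ T))

/-- The biased Bonami inequality. -/
lemma bonami {p : ℝ} (h0 : 0 < p) (h1 : p < 1) (A : Finset ι) : ∀ c : Finset ι → ℝ,
    ex p (fun x : ι → Bool => (∑ S ∈ A.powerset, c S * chi p S x) ^ 4)
      ≤ (∑ S ∈ A.powerset, (2 / sd p) ^ S.card * c S ^ 2) ^ 2 := by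
  have hs := sd_pos h0 h1
  have hs2 := sd_le_half h0 h1
  have hK4 : 4 ≤ 2 / sd p := by rw [le_div_iff₀ hs]; linarith
  induction A using Finset.induction_on with
  | empty =>
    intro c
    simp only [powerset_empty, sum_singleton, chi_empty, mul_one, card_empty, pow_zero, one_mul]
    rw [ex_const]
    apply le_of_eq; ring
  | insert i A hi ih =>
    intro c
    set K : ℝ := 2 / sd p with hK
    set P : (ι → Bool) → ℝ := fun x => ∑ S ∈ A.powerset, c S * chi p S x with hP
    set Q : (ι → Bool) → ℝ := fun x => ∑ S ∈ A.powerset, c (insert i S) * chi p S x with hQ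
    set a : ℝ := ∑ S ∈ A.powerset, K ^ S.card * c S ^ 2 with ha
    set q : ℝ := ∑ S ∈ A.powerset, K ^ S.card * c (insert i S) ^ 2 with hq
    have hK0 : 0 < K := by linarith
    have ha0 : 0 ≤ a := sum_nonneg fun S _ => by positivity
    have hq0 : 0 ≤ q := sum_nonneg fun S _ => by positivity
    have hiS : ∀ S ∈ A.powerset, i ∉ S := fun S hS h => hi ((mem_powerset.mp hS) h)
    have g1 : ∀ x : ι → Bool, ∑ S ∈ (insert i A).powerset, c S * chi p S x
        = P x + ph p (x i) * Q x := by
      intro x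
      rw [sum_powerset_insert hi]
      congr 1
      rw [hQ, mul_sum]
      apply sum_congr rfl
      intro S hS
      rw [chi_insert p (hiS S hS)]; ring
    have g2 : ∑ S ∈ (insert i A).powerset, K ^ S.card * c S ^ 2 = a + K * q := by
      rw [sum_powerset_insert hi]
      congr 1
      rw [hq, mul_sum]
      apply sum_congr rfl
      intro S hS
      rw [card_insert_of_notMem (hiS S hS)]; ring
    -- functions not depending on coordinate i
    have hPm : ∀ x y, P (mix ({i}ᶜ) x y) = P x := by
      intro x y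
      apply sum_congr rfl
      intro S hS
      rw [chi_mix]
      have e1 : S ∩ {i}ᶜ = S := by
        apply inter_eq_left.mpr
        intro j hj
        rw [mem_compl, mem_singleton]
        rintro rfl
        exact hiS S hS hj
      have e2 : S \ {i}ᶜ = ∅ := sdiff_eq_empty_iff_subset.mpr (inter_eq_left.mp e1)
      rw [e1, e2, chi_empty, mul_one]
    have hQm : ∀ x y, Q (mix ({i}ᶜ) x y) = Q x := by
      intro x y
      apply sum_congr rfl
      intro S hS
      rw [chi_mix]
      have e1 : S ∩ {i}ᶜ = S := by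
        apply inter_eq_left.mpr
        intro j hj
        rw [mem_compl, mem_singleton]
        rintro rfl
        exact hiS S hS hj
      have e2 : S \ {i}ᶜ = ∅ := sdiff_eq_empty_iff_subset.mpr (inter_eq_left.mp e1)
      rw [e1, e2, chi_empty, mul_one]
    have hbit : ∀ (h : Bool → ℝ) (G : (ι → Bool) → ℝ) (_ : ∀ x y, G (mix ({i}ᶜ) x y) = G x),
        ex p (fun x => G x * h (x i)) = ex p G * (p * h true + (1 - p) * h false) := by
      intro h G hG
      rw [← ex_bit p i h]
      apply ex_indep p ({i}ᶜ) G (fun x => h (x i)) hG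
      intro x y
      rw [mix_notMem]
      simp
    have g3 : ∀ x : ι → Bool, (∑ S ∈ (insert i A).powerset, c S * chi p S x) ^ 4
        = ((((P x ^ 4) + (4 * P x ^ 3 * Q x) * ph p (x i))
            + (6 * (P x ^ 2 * Q x ^ 2)) * (ph p (x i) * ph p (x i)))
            + (4 * P x * Q x ^ 3) * (ph p (x i) ^ 3)) + (Q x ^ 4) * (ph p (x i) ^ 4) := by
      intro x
      rw [g1 x]; ring
    rw [ex_congr g3, g2, ex_add, ex_add, ex_add, ex_add]
    have t1 := hbit (fun b => ph p b) (fun x => 4 * P x ^ 3 * Q x) (fun x y => by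
      simp only [hPm, hQm])
    have t2 := hbit (fun b => ph p b * ph p b) (fun x => 6 * (P x ^ 2 * Q x ^ 2)) (fun x y => by
      simp only [hPm, hQm])
    have t3 := hbit (fun b => ph p b ^ 3) (fun x => 4 * P x * Q x ^ 3) (fun x y => by
      simp only [hPm, hQm])
    have t4 := hbit (fun b => ph p b ^ 4) (fun x => Q x ^ 4) (fun x y => by
      simp only [hPm, hQm])
    rw [t1, t2, t3, t4, ph_mean, ph_sq_mean h0 h1, mul_zero, add_zero, mul_one]
    have hm3 := ph_cube_mean h0 h1
    have hm4 := ph_four_mean h0 h1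
    set m3 : ℝ := p * ph p true ^ 3 + (1 - p) * ph p false ^ 3 with hm3'
    set m4 : ℝ := p * ph p true ^ 4 + (1 - p) * ph p false ^ 4 with hm4'
    have e1 : ex p (fun x => P x ^ 4) ≤ a ^ 2 := ih c
    have e2 : ex p (fun x => Q x ^ 4) ≤ q ^ 2 := ih (fun S => c (insert i S))
    have hQ4 : 0 ≤ ex p (fun x => Q x ^ 4) := ex_nonneg h0.le h1.le fun x => by positivity
    have e3 : ex p (fun x => P x ^ 2 * Q x ^ 2) ≤ a * q := by
      have hcs := ex_mul_sq_le h0.le h1.le (fun x => P x ^ 2) (fun x => Q x ^ 2)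
      have r1 : (fun x => (P x ^ 2) ^ 2) = fun x => P x ^ 4 := by funext x; ring
      have r2 : (fun x => (Q x ^ 2) ^ 2) = fun x => Q x ^ 4 := by funext x; ring
      rw [r1, r2] at hcs
      have hm0 : 0 ≤ ex p (fun x => P x ^ 2 * Q x ^ 2) :=
        ex_nonneg h0.le h1.le fun x => by positivity
      have : ex p (fun x => P x ^ 2 * Q x ^ 2) ^ 2 ≤ (a * q) ^ 2 := by
        calc ex p (fun x => P x ^ 2 * Q x ^ 2) ^ 2
            ≤ ex p (fun x => P x ^ 4) * ex p (fun x => Q x ^ 4) := hcs
          _ ≤ a ^ 2 * q ^ 2 := mul_le_mul e1 e2 hQ4 (by positivity)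
          _ = (a * q) ^ 2 := by ring
      exact (pow_le_pow_iff_left₀ hm0 (by positivity) two_ne_zero).mp this
    have e4 : ex p (fun x => 6 * (P x ^ 2 * Q x ^ 2)) = 6 * ex p (fun x => P x ^ 2 * Q x ^ 2) :=
      ex_const_mul p 6 _
    -- the cubic term
    have e5 : ex p (fun x => 4 * P x * Q x ^ 3) * m3
        ≤ 2 * ex p (fun x => P x ^ 2 * Q x ^ 2) + 2 / sd p ^ 2 * ex p (fun x => Q x ^ 4) := by
      rw [← ex_mul_const, ← ex_const_mul, ← ex_const_mul, ← ex_add]
      apply ex_mono h0.le h1.le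
      intro x
      have hm3sq : m3 ^ 2 ≤ 1 / sd p ^ 2 := by
        have := sq_le_sq' (by linarith [neg_abs_le m3, abs_nonneg m3, hm3] : -(1 / sd p) ≤ m3)
          (le_trans (le_abs_self m3) hm3)
        rw [div_pow, one_pow] at this
        exact this
      have k1 : 4 * P x * Q x ^ 3 * m3 ≤ 2 * (P x ^ 2 * Q x ^ 2) + 2 * (m3 ^ 2 * Q x ^ 4) := by
        nlinarith [sq_nonneg (P x * Q x - m3 * Q x ^ 2)]
      have k2 : 2 * (m3 ^ 2 * Q x ^ 4) ≤ 2 / sd p ^ 2 * Q x ^ 4 := by
        have hq4 : 0 ≤ Q x ^ 4 := by positivity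
        have := mul_le_mul_of_nonneg_right hm3sq hq4
        calc 2 * (m3 ^ 2 * Q x ^ 4) ≤ 2 * (1 / sd p ^ 2 * Q x ^ 4) := by linarith
          _ = _ := by ring
      linarith
    have e6 : ex p (fun x => Q x ^ 4) * m4 ≤ 1 / sd p ^ 2 * ex p (fun x => Q x ^ 4) := by
      rw [mul_comm]
      exact mul_le_mul_of_nonneg_right hm4 hQ4
    have hKK : K ^ 2 = 4 / sd p ^ 2 := by rw [hK, div_pow]; norm_num
    have e7 : 3 / sd p ^ 2 * ex p (fun x => Q x ^ 4) ≤ K ^ 2 * q ^ 2 := by
      have : 3 / sd p ^ 2 ≤ K ^ 2 := by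
        rw [hKK]
        apply div_le_div_of_nonneg_right _ (by positivity)
        norm_num
      exact mul_le_mul this e2 hQ4 (by positivity)
    have e8 : 8 * ex p (fun x => P x ^ 2 * Q x ^ 2) ≤ 2 * K * (a * q) := by
      have haq : 0 ≤ a * q := mul_nonneg ha0 hq0
      have k1 : 4 * (a * q) ≤ K * (a * q) := mul_le_mul_of_nonneg_right hK4 haq
      linarith
    have e9 : 2 / sd p ^ 2 * ex p (fun x => Q x ^ 4) + 1 / sd p ^ 2 * ex p (fun x => Q x ^ 4)
        = 3 / sd p ^ 2 * ex p (fun x => Q x ^ 4) := by ring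
    have e10 : (a + K * q) ^ 2 = a ^ 2 + 2 * K * (a * q) + K ^ 2 * q ^ 2 := by ring
    rw [e4, e10]
    linarith [e1, e5, e6, e7, e8, e9]

end Vale.Agent.P063
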