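import Vale.Agent.Lib.P063.Defs

/-!
Combinatorial lemmas: a low-degree vertex, counting sets meeting `U` in one point.
-/

set_option autoImplicit false

namespace Vale.Agent.P063

open Finset

theorem verts_card_le {n r : ℕ} (S : Finset (Edge n r)) : (verts S).card ≤ r * S.card := by
  unfold verts
  rw [mul_comm]
  exact Finset.card_biUnion_le_card_mul S (fun e => e.1) r (fun e _ => e.2.le)

theorem sum_deg {n r : ℕ} (S : Finset (Edge n r)) :
    ∑ a ∈ verts S, deg S a = r * S.card := by
  unfold deg
  have h1 : ∀ a ∈ verts S, (S.filter fun e => a ∈ e.1).card =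
      ∑ e ∈ S, if a ∈ e.1 then 1 else 0 := fun a _ => Finset.card_filter _ _
  rw [Finset.sum_congr rfl h1, Finset.sum_comm]
  have h2 : ∀ e ∈ S, (∑ a ∈ verts S, if a ∈ e.1 then 1 else 0) = r := by
    intro e he
    rw [← Finset.card_filter]
    have h3 : (verts S).filter (fun a => a ∈ e.1) = e.1 := by
      ext a
      simp only [Finset.mem_filter, verts, Finset.mem_biUnion]
      constructor
      · exact fun h => h.2
      · exact fun h => ⟨⟨e, he, h⟩, h⟩
    rw [h3, e.2]
  rw [Finset.sum_congr rfl h2, Finset.sum_const, smul_eq_mul, mul_comm]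

theorem deg_le_choose {n r : ℕ} (S : Finset (Edge n r)) (a : Fin n) :
    deg S a ≤ (verts S).card.choose (r - 1) := by
  unfold deg
  rw [← Finset.card_powersetCard]
  apply Finset.card_le_card_of_injOn (fun e => e.1.erase a)
  · intro e he
    rw [Finset.mem_coe, Finset.mem_filter] at he
    rw [Finset.mem_coe, Finset.mem_powersetCard]
    refine ⟨fun b hb => ?_, ?_⟩
    · exact Finset.mem_biUnion.2 ⟨e, he.1, Finset.mem_of_mem_erase hb⟩
    · rw [Finset.card_erase_of_mem he.2, e.2]
  · intro e he e' he' h
    rw [Finset.mem_coe, Finset.mem_filter] at he he'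
    simp only at h
    apply Subtype.ext
    rw [← Finset.insert_erase he.2, ← Finset.insert_erase he'.2, h]

theorem exists_low {n r : ℕ} (hr : 2 ≤ r) (S : Finset (Edge n r)) (hS : S.Nonempty) (k : ℕ)
    (hlt : (r * S.card) ^ (r - 1) < k ^ r) : ∃ a ∈ verts S, deg S a ≤ k := by
  by_contra hcon
  push Not at hcon
  obtain ⟨e, he⟩ := hS
  have hne : e.1.Nonempty := by
    rw [← Finset.card_pos, e.2]; omega
  obtain ⟨a, ha⟩ := hne
  have hav : a ∈ verts S := Finset.mem_biUnion.2 ⟨e, he, ha⟩
  have h1 : (verts S).card * k ≤ r * S.card := by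
    rw [← sum_deg S]
    calc (verts S).card * k = ∑ _a ∈ verts S, k := by rw [Finset.sum_const, smul_eq_mul]
      _ ≤ ∑ a ∈ verts S, deg S a := Finset.sum_le_sum fun b hb => (hcon b hb).le
  have h2 : k ≤ (verts S).card ^ (r - 1) :=
    (hcon a hav).le.trans ((deg_le_choose S a).trans (Nat.choose_le_pow _ _))
  have h3 : k ^ r ≤ (r * S.card) ^ (r - 1) := by
    calc k ^ r = k * k ^ (r - 1) := by
          rw [← pow_succ']; congr 1; omega
      _ ≤ (verts S).card ^ (r - 1) * k ^ (r - 1) := Nat.mul_le_mul_right _ h2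
      _ = ((verts S).card * k) ^ (r - 1) := (mul_pow _ _ _).symm
      _ ≤ (r * S.card) ^ (r - 1) := Nat.pow_le_pow_left h1 _
  omega

theorem choose_le_add (N j : ℕ) (t : ℕ) (ht : t ≤ N) :
    N.choose (j + 1) ≤ (N - t).choose (j + 1) + t * (N - 1).choose j := by
  induction t with
  | zero => simp
  | succ t ih =>
    have ih' := ih (by omega)
    have h1 : (N - t).choose (j + 1) = (N - (t + 1)).choose j + (N - (t + 1)).choose (j + 1) := by
      have h2 : N - t = (N - (t + 1)) + 1 := by omega
      rw [h2, Nat.choose_succ_succ]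
    have h3 : (N - (t + 1)).choose j ≤ (N - 1).choose j := Nat.choose_le_choose j (by omega)
    rw [add_mul, one_mul]
    omega

theorem choose_le_two_mul (N j t : ℕ) (h : 2 * t * j ≤ N) (ht : t ≤ N) :
    N.choose j ≤ 2 * (N - t).choose j := by
  cases j with
  | zero => simp
  | succ j =>
    rcases Nat.eq_zero_or_pos t with rfl | ht0
    · simp; omega
    have hN : 0 < N := by omega
    have h1 := choose_le_add N j t ht
    have h2 : N * (N - 1).choose j = N.choose (j + 1) * (j + 1) := by
      obtain ⟨N', rfl⟩ : ∃ N', N = N' + 1 := ⟨N - 1, by omega⟩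
      have := Nat.add_one_mul_choose_eq N' j
      simpa using this
    have h3 : 2 * t * (N - 1).choose j ≤ N.choose (j + 1) := by
      apply Nat.le_of_mul_le_mul_left _ hN
      calc N * (2 * t * (N - 1).choose j) = 2 * t * (N * (N - 1).choose j) := by ring
        _ = (2 * t * (j + 1)) * N.choose (j + 1) := by rw [h2]; ring
        _ ≤ N * N.choose (j + 1) := Nat.mul_le_mul_right _ h
    have h4 : 2 * t * (N - 1).choose j = 2 * (t * (N - 1).choose j) := by ring
    omega

theorem count_sets {n v m : ℕ} (hm : 1 ≤ m) (hvm : 2 * v * m ≤ n) (U : Finset (Fin n))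
    (hU : U.card ≤ v) (a : Fin n) (ha : a ∈ U) :
    m * n.choose m ≤
      2 * n * (((univ : Finset (Fin n)).powersetCard m).filter (fun A => A ∩ U = {a})).card := by
  have hu : 1 ≤ U.card := Finset.card_pos.2 ⟨a, ha⟩
  have hlow : (n - U.card).choose (m - 1) ≤
      (((univ : Finset (Fin n)).powersetCard m).filter (fun A => A ∩ U = {a})).card := by
    have h1 : (Uᶜ).card = n - U.card := by rw [Finset.card_compl, Fintype.card_fin]
    rw [← h1, ← Finset.card_powersetCard]
    apply Finset.card_le_card_of_injOn (fun B => insert a B)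
    · intro B hB
      rw [Finset.mem_coe, Finset.mem_powersetCard] at hB
      rw [Finset.mem_coe, Finset.mem_filter, Finset.mem_powersetCard]
      have haB : a ∉ B := fun h => by
        have := hB.1 h
        rw [Finset.mem_compl] at this
        exact this ha
      refine ⟨⟨Finset.subset_univ _, ?_⟩, ?_⟩
      · rw [Finset.card_insert_of_notMem haB, hB.2]; omega
      · ext b
        simp only [Finset.mem_inter, Finset.mem_insert, Finset.mem_singleton]
        constructor
        · rintro ⟨h | h, hbU⟩
          · exact h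
          · have := hB.1 h
            rw [Finset.mem_compl] at this
            exact absurd hbU this
        · rintro rfl
          exact ⟨Or.inl rfl, ha⟩
    · intro B hB B' hB' h
      rw [Finset.mem_coe, Finset.mem_powersetCard] at hB hB'
      have haB : a ∉ B := fun h => by
        have := hB.1 h
        rw [Finset.mem_compl] at this
        exact this ha
      have haB' : a ∉ B' := fun h => by
        have := hB'.1 h
        rw [Finset.mem_compl] at this
        exact this ha
      simp only at h
      rw [← Finset.erase_insert haB, ← Finset.erase_insert haB', h]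
  have hv1 : 1 ≤ v := hu.trans hU
  have hUn : U.card ≤ n := by
    have := Finset.card_le_univ U
    rwa [Fintype.card_fin] at this
  obtain ⟨n', rfl⟩ : ∃ n', n = n' + 1 := ⟨n - 1, by omega⟩
  obtain ⟨m', rfl⟩ : ∃ m', m = m' + 1 := ⟨m - 1, by omega⟩
  obtain ⟨u', hu'⟩ : ∃ u', U.card = u' + 1 := ⟨U.card - 1, by omega⟩
  rw [hu'] at hlow hU hUn
  have e1 : n' + 1 - (u' + 1) = n' - u' := by omega
  have e2 : m' + 1 - 1 = m' := by omega
  rw [e1, e2] at hlow
  have hkey : n'.choose m' ≤ 2 * (n' - u').choose m' := by
    apply choose_le_two_mul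
    · have h5 : 2 * (u' + 1) * (m' + 1) ≤ n' + 1 :=
        (Nat.mul_le_mul_right _ (Nat.mul_le_mul_left _ hU)).trans hvm
      have h6 : 2 * (u' + 1) * (m' + 1) = 2 * u' * m' + 2 * u' + 2 * m' + 2 := by ring
      omega
    · omega
  have h7 := Nat.add_one_mul_choose_eq n' m'
  calc (m' + 1) * (n' + 1).choose (m' + 1) = (n' + 1) * n'.choose m' := by
        rw [mul_comm]; exact h7.symm
    _ ≤ (n' + 1) * (2 * (n' - u').choose m') := Nat.mul_le_mul_left _ hkey
    _ = 2 * (n' + 1) * (n' - u').choose m' := by ring
    _ ≤ _ := Nat.mul_le_mul_left _ hlow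

end Vale.Agent.P063
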