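import Mathlib

/-!
Hypergraph properties, their probabilities in the binomial model and their threshold widths.
-/

set_option autoImplicit false

namespace Vale.Agent.P063

open Finset

/-- The `r`-element subsets of the vertex set `Fin n`. -/
abbrev Edge (n r : ℕ) : Type := {e : Finset (Fin n) // e.card = r}

/-- An `r`-uniform hypergraph on the vertex set `Fin n`, as a point of the cube indexed by the
`r`-element subsets of `Fin n`: the edge `e` is present iff `x e = true`. -/
abbrev HGraph (n r : ℕ) : Type := Edge n r → Bool

/-- The action of a permutation of the vertices on the edges. -/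
def permEdge {n r : ℕ} (σ : Equiv.Perm (Fin n)) (e : Edge n r) : Edge n r :=
  ⟨e.1.map σ.toEmbedding, by rw [Finset.card_map]; exact e.2⟩

/-- A hypergraph property: a family of hypergraphs invariant under all permutations of the
vertices. -/
def IsProperty {n r : ℕ} (P : Set (HGraph n r)) : Prop :=
  ∀ (σ : Equiv.Perm (Fin n)) (x : HGraph n r), (fun e => x (permEdge σ e)) ∈ P ↔ x ∈ P

/-- Adding edges preserves membership. -/
def Increasing {n r : ℕ} (P : Set (HGraph n r)) : Prop :=
  ∀ x y : HGraph n r, (∀ e, x e = true → y e = true) → x ∈ P → y ∈ P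

open Classical in
/-- The probability that the random `r`-uniform hypergraph, in which every edge is present
independently with probability `p`, belongs to `P`. -/
noncomputable def mu {n r : ℕ} (P : Set (HGraph n r)) (p : ℝ) : ℝ :=
  ∑ x : HGraph n r, if x ∈ P then ∏ e, (if x e = true then p else 1 - p) else 0

/-- `pcrit P a` is the infimum of the `p ∈ [0,1]` at which `P` has probability at least `a`. -/
noncomputable def pcrit {n r : ℕ} (P : Set (HGraph n r)) (a : ℝ) : ℝ :=
  sInf {p : ℝ | p ∈ Set.Icc (0:ℝ) 1 ∧ a ≤ mu P p}

/-- The threshold width. -/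
noncomputable def width {n r : ℕ} (P : Set (HGraph n r)) (ε : ℝ) : ℝ :=
  pcrit P (1 - ε) - pcrit P ε

/-- The set of vertices touched by a set of edges. -/
def verts {n r : ℕ} (S : Finset (Edge n r)) : Finset (Fin n) := S.biUnion fun e => e.1

/-- The degree of a vertex in a set of edges. -/
def deg {n r : ℕ} (S : Finset (Edge n r)) (a : Fin n) : ℕ := (S.filter fun e => a ∈ e.1).card

end Vale.Agent.P063
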