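import Mathlib

/-!
Fourier analysis on the cube `ι → Bool` with the product measure of parameter `p`.
-/

set_option autoImplicit false
set_option linter.unusedSectionVars false

namespace Vale.Agent.P063

open Finset

variable {ι : Type} [Fintype ι] [DecidableEq ι]

/-- The weight of a bit. -/
def bw (p : ℝ) (b : Bool) : ℝ := if b = true then p else 1 - p

/-- The weight of a point of the cube. -/
noncomputable def wt (p : ℝ) (x : ι → Bool) : ℝ := ∏ i, bw p (x i)

/-- The expectation with respect to the product measure. -/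
noncomputable def ex (p : ℝ) (F : (ι → Bool) → ℝ) : ℝ := ∑ x, wt p x * F x

lemma bw_nonneg {p : ℝ} (h0 : 0 ≤ p) (h1 : p ≤ 1) (b : Bool) : 0 ≤ bw p b := by
  unfold bw; split_ifs <;> linarith

lemma wt_nonneg {p : ℝ} (h0 : 0 ≤ p) (h1 : p ≤ 1) (x : ι → Bool) : 0 ≤ wt p x :=
  prod_nonneg fun _ _ => bw_nonneg h0 h1 _

lemma ex_congr {p : ℝ} {F G : (ι → Bool) → ℝ} (h : ∀ x, F x = G x) : ex p F = ex p G := by
  have : F = G := funext h
  rw [this]

lemma ex_add (p : ℝ) (F G : (ι → Bool) → ℝ) :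
    ex p (fun x => F x + G x) = ex p F + ex p G := by
  unfold ex; rw [← sum_add_distrib]; exact sum_congr rfl fun x _ => by ring

lemma ex_sub (p : ℝ) (F G : (ι → Bool) → ℝ) :
    ex p (fun x => F x - G x) = ex p F - ex p G := by
  unfold ex; rw [← sum_sub_distrib]; exact sum_congr rfl fun x _ => by ring

lemma ex_const_mul (p c : ℝ) (F : (ι → Bool) → ℝ) :
    ex p (fun x => c * F x) = c * ex p F := by
  unfold ex; rw [mul_sum]; exact sum_congr rfl fun x _ => by ring

lemma ex_mul_const (p c : ℝ) (F : (ι → Bool) → ℝ) :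
    ex p (fun x => F x * c) = ex p F * c := by
  unfold ex; rw [sum_mul]; exact sum_congr rfl fun x _ => by ring

lemma ex_sum (p : ℝ) {κ : Type} (s : Finset κ) (F : κ → (ι → Bool) → ℝ) :
    ex p (fun x => ∑ k ∈ s, F k x) = ∑ k ∈ s, ex p (F k) := by
  unfold ex; rw [sum_comm]; exact sum_congr rfl fun x _ => by rw [mul_sum]

lemma ex_mono {p : ℝ} (h0 : 0 ≤ p) (h1 : p ≤ 1) {F G : (ι → Bool) → ℝ} (h : ∀ x, F x ≤ G x) :
    ex p F ≤ ex p G :=
  sum_le_sum fun x _ => mul_le_mul_of_nonneg_left (h x) (wt_nonneg h0 h1 x)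

lemma ex_nonneg {p : ℝ} (h0 : 0 ≤ p) (h1 : p ≤ 1) {F : (ι → Bool) → ℝ} (h : ∀ x, 0 ≤ F x) :
    0 ≤ ex p F :=
  sum_nonneg fun x _ => mul_nonneg (wt_nonneg h0 h1 x) (h x)

lemma abs_ex_le {p : ℝ} (h0 : 0 ≤ p) (h1 : p ≤ 1) (F : (ι → Bool) → ℝ) :
    |ex p F| ≤ ex p (fun x => |F x|) := by
  unfold ex
  refine (abs_sum_le_sum_abs _ _).trans (le_of_eq ?_)
  apply sum_congr rfl
  intro x _
  rw [abs_mul, abs_of_nonneg (wt_nonneg h0 h1 x)]

/-- Expectation of a product of functions of single bits. -/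
lemma ex_prod (p : ℝ) (h : ι → Bool → ℝ) :
    ex p (fun x => ∏ i, h i (x i)) = ∏ i, (p * h i true + (1 - p) * h i false) := by
  have e : ∀ i, p * h i true + (1 - p) * h i false = ∑ b : Bool, bw p b * h i b := by
    intro i
    simp [bw]
  simp only [e]
  rw [Finset.prod_univ_sum]
  simp only [Fintype.piFinset_univ]
  unfold ex wt
  apply sum_congr rfl
  intro x _
  rw [← prod_mul_distrib]

lemma ex_const (p c : ℝ) : ex p (fun _ : ι → Bool => c) = c := by
  have h := ex_prod (ι := ι) p (fun _ _ => 1)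
  have h' : ex p (fun _ : ι → Bool => (1:ℝ)) = 1 := by
    simpa using h
  have : ex p (fun _ : ι → Bool => c) = c * ex p (fun _ : ι → Bool => (1:ℝ)) := by
    rw [← ex_const_mul]; simp
  rw [this, h', mul_one]

/-- Cauchy-Schwarz. -/
lemma ex_mul_sq_le {p : ℝ} (h0 : 0 ≤ p) (h1 : p ≤ 1) (F G : (ι → Bool) → ℝ) :
    (ex p (fun x => F x * G x)) ^ 2 ≤ ex p (fun x => F x ^ 2) * ex p (fun x => G x ^ 2) := by
  unfold ex
  have h := sum_mul_sq_le_sq_mul_sq (univ : Finset (ι → Bool))
    (fun x => Real.sqrt (wt p x) * F x) (fun x => Real.sqrt (wt p x) * G x)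
  have hs : ∀ x : ι → Bool, Real.sqrt (wt p x) * Real.sqrt (wt p x) = wt p x :=
    fun x => Real.mul_self_sqrt (wt_nonneg h0 h1 x)
  have e1 : ∀ x : ι → Bool, (Real.sqrt (wt p x) * F x) * (Real.sqrt (wt p x) * G x)
      = wt p x * (F x * G x) := by
    intro x
    calc _ = (Real.sqrt (wt p x) * Real.sqrt (wt p x)) * (F x * G x) := by ring
      _ = _ := by rw [hs]
  have e2 : ∀ x : ι → Bool, (Real.sqrt (wt p x) * F x) ^ 2 = wt p x * F x ^ 2 := by
    intro x
    calc _ = (Real.sqrt (wt p x) * Real.sqrt (wt p x)) * (F x ^ 2) := by ring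
      _ = _ := by rw [hs]
  have e3 : ∀ x : ι → Bool, (Real.sqrt (wt p x) * G x) ^ 2 = wt p x * G x ^ 2 := by
    intro x
    calc _ = (Real.sqrt (wt p x) * Real.sqrt (wt p x)) * (G x ^ 2) := by ring
      _ = _ := by rw [hs]
  simp only [e1, e2, e3] at h
  exact h

/-- The standard deviation of a bit. -/
noncomputable def sd (p : ℝ) : ℝ := Real.sqrt (p * (1 - p))

/-- The normalised bit. -/
noncomputable def ph (p : ℝ) (b : Bool) : ℝ := ((if b = true then 1 else 0) - p) / sd p

section Params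

variable {p : ℝ}

lemma sd_pos (h0 : 0 < p) (h1 : p < 1) : 0 < sd p :=
  Real.sqrt_pos.mpr (mul_pos h0 (by linarith))

lemma sd_sq (h0 : 0 < p) (h1 : p < 1) : sd p ^ 2 = p * (1 - p) :=
  Real.sq_sqrt (mul_nonneg h0.le (by linarith))

lemma sd_le_half (h0 : 0 < p) (h1 : p < 1) : sd p ≤ 1 / 2 := by
  have h := sd_sq h0 h1
  have hp := sd_pos h0 h1
  nlinarith [sq_nonneg (p - 1 / 2)]

lemma ph_true : ph p true = (1 - p) / sd p := by simp [ph]

lemma ph_false : ph p false = - p / sd p := by simp [ph]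

lemma ph_mean : p * ph p true + (1 - p) * ph p false = 0 := by
  rw [ph_true, ph_false]; ring

lemma ph_sq_mean (h0 : 0 < p) (h1 : p < 1) :
    p * (ph p true * ph p true) + (1 - p) * (ph p false * ph p false) = 1 := by
  have hs := sd_sq h0 h1
  have hp := sd_pos h0 h1
  rw [ph_true, ph_false]
  field_simp
  rw [hs]; ring

lemma ph_mul (h0 : 0 < p) (h1 : p < 1) : 1 + ph p true * ph p false = 0 := by
  have hs := sd_sq h0 h1
  have hp := sd_pos h0 h1
  rw [ph_true, ph_false]
  field_simp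
  rw [hs]; ring

lemma bw_ph (h0 : 0 < p) (h1 : p < 1) (b : Bool) : bw p b * (1 + ph p b * ph p b) = 1 := by
  have hs := sd_sq h0 h1
  have hp := sd_pos h0 h1
  cases b
  · rw [ph_false]
    simp only [bw, Bool.false_eq_true, if_false]
    field_simp
    rw [hs]; ring
  · rw [ph_true]
    simp only [bw, if_true]
    field_simp
    rw [hs]; ring

lemma ph_diff : ph p true - ph p false = 1 / sd p := by
  rw [ph_true, ph_false]; ring

/-- Third moment. -/
lemma ph_cube_mean (h0 : 0 < p) (h1 : p < 1) :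
    |p * ph p true ^ 3 + (1 - p) * ph p false ^ 3| ≤ 1 / sd p := by
  have hs := sd_sq h0 h1
  have hp := sd_pos h0 h1
  have e : p * ph p true ^ 3 + (1 - p) * ph p false ^ 3 = (1 - 2 * p) / sd p := by
    rw [ph_true, ph_false]
    have h3 : sd p ^ 3 = p * (1 - p) * sd p := by rw [← hs]; ring
    rw [div_pow, div_pow, h3]
    have hpp : p * (1 - p) ≠ 0 := by
      have := mul_pos h0 (show (0:ℝ) < 1 - p by linarith)
      exact this.ne'
    have h1p : (1 - p) ≠ 0 := by linarith
    field_simp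
    ring
  rw [e, abs_div, abs_of_pos hp]
  apply div_le_div_of_nonneg_right _ hp.le
  rw [abs_le]; constructor <;> linarith

/-- Fourth moment. -/
lemma ph_four_mean (h0 : 0 < p) (h1 : p < 1) :
    p * ph p true ^ 4 + (1 - p) * ph p false ^ 4 ≤ 1 / sd p ^ 2 := by
  have hs := sd_sq h0 h1
  have hp := sd_pos h0 h1
  have e : p * ph p true ^ 4 + (1 - p) * ph p false ^ 4 = (1 - 3 * (p * (1 - p))) / sd p ^ 2 := by
    rw [ph_true, ph_false]
    have h3 : sd p ^ 4 = (p * (1 - p)) * sd p ^ 2 := by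
      calc sd p ^ 4 = sd p ^ 2 * sd p ^ 2 := by ring
        _ = _ := by rw [hs]
    rw [div_pow, div_pow, h3]
    have hpp : p * (1 - p) ≠ 0 := by
      have := mul_pos h0 (show (0:ℝ) < 1 - p by linarith)
      exact this.ne'
    have h1p : (1 - p) ≠ 0 := by linarith
    field_simp
    ring
  rw [e]
  apply div_le_div_of_nonneg_right _ (by positivity)
  have := mul_pos h0 (show (0:ℝ) < 1 - p by linarith)
  linarith

end Params

/-- The normalised characters. -/
noncomputable def chi (p : ℝ) (S : Finset ι) (x : ι → Bool) : ℝ := ∏ i ∈ S, ph p (x i)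

lemma chi_empty (p : ℝ) (x : ι → Bool) : chi p ∅ x = 1 := by simp [chi]

lemma chi_insert (p : ℝ) {S : Finset ι} {i : ι} (hi : i ∉ S) (x : ι → Bool) :
    chi p (insert i S) x = ph p (x i) * chi p S x := by simp [chi, prod_insert hi]

lemma chi_union (p : ℝ) {S T : Finset ι} (h : Disjoint S T) (x : ι → Bool) :
    chi p (S ∪ T) x = chi p S x * chi p T x := by
  unfold chi; rw [prod_union h]

/-- Fourier coefficient. -/
noncomputable def fc (p : ℝ) (F : (ι → Bool) → ℝ) (S : Finset ι) : ℝ :=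
  ex p (fun x => F x * chi p S x)

lemma chi_eq_prod_univ (p : ℝ) (S : Finset ι) (x : ι → Bool) :
    chi p S x = ∏ i, (if i ∈ S then ph p (x i) else 1) := by
  unfold chi
  rw [Finset.prod_ite_mem]
  simp

/-- Orthonormality. -/
lemma ex_chi_mul_chi {p : ℝ} (h0 : 0 < p) (h1 : p < 1) (S T : Finset ι) :
    ex p (fun x => chi p S x * chi p T x) = if S = T then 1 else 0 := by
  have e : ∀ x : ι → Bool, chi p S x * chi p T x
      = ∏ i, (if i ∈ S then ph p (x i) else 1) * (if i ∈ T then ph p (x i) else 1) := by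
    intro x
    rw [chi_eq_prod_univ, chi_eq_prod_univ, ← prod_mul_distrib]
  rw [ex_congr e]
  refine (ex_prod p (fun i b => (if i ∈ S then ph p b else 1) * (if i ∈ T then ph p b else 1))).trans ?_
  split_ifs with h
  · subst h
    apply prod_eq_one
    intro i _
    by_cases hi : i ∈ S
    · simp only [hi, if_true]
      exact ph_sq_mean h0 h1
    · simp only [hi, if_false]; ring
  · obtain ⟨i, hi⟩ : ∃ i, ¬ (i ∈ S ↔ i ∈ T) := by
      by_contra hcon
      push Not at hcon
      exact h (Finset.ext hcon)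
    apply prod_eq_zero (mem_univ i)
    by_cases h2 : i ∈ S
    · have h3 : i ∉ T := fun h => hi ⟨fun _ => h, fun _ => h2⟩
      simp only [h2, h3, if_true, if_false, mul_one]
      exact ph_mean
    · have h3 : i ∈ T := by
        by_contra h
        exact hi ⟨fun h' => absurd h' h2, fun h' => absurd h' h⟩
      simp only [h2, h3, if_true, if_false, one_mul]
      exact ph_mean

lemma ex_chi {p : ℝ} (h0 : 0 < p) (h1 : p < 1) (S : Finset ι) :
    ex p (fun x => chi p S x) = if S = ∅ then 1 else 0 := by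
  have := ex_chi_mul_chi h0 h1 S ∅
  simpa [chi_empty] using this

lemma sum_chi_mul_chi {p : ℝ} (h0 : 0 < p) (h1 : p < 1) (x y : ι → Bool) :
    wt p x * ∑ S : Finset ι, chi p S x * chi p S y = if x = y then 1 else 0 := by
  have h2 : ∑ S : Finset ι, chi p S x * chi p S y = ∏ i : ι, (1 + ph p (x i) * ph p (y i)) := by
    rw [prod_one_add]
    simp only [powerset_univ, chi]
    apply sum_congr rfl
    intro S _
    rw [prod_mul_distrib]
  rw [h2]
  split_ifs with h
  · subst h
    unfold wt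
    rw [← prod_mul_distrib]
    exact prod_eq_one fun i _ => bw_ph h0 h1 _
  · obtain ⟨i, hi⟩ : ∃ i, x i ≠ y i := by
      by_contra hcon
      push Not at hcon
      exact h (funext hcon)
    have : ∏ i : ι, (1 + ph p (x i) * ph p (y i)) = 0 := by
      apply prod_eq_zero (mem_univ i)
      have hm := ph_mul h0 h1
      cases hx : x i <;> cases hy : y i
      · rw [hx, hy] at hi; exact absurd rfl hi
      · rw [mul_comm]; exact hm
      · exact hm
      · rw [hx, hy] at hi; exact absurd rfl hi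
    rw [this, mul_zero]

/-- Fourier inversion. -/
lemma fourier_inversion {p : ℝ} (h0 : 0 < p) (h1 : p < 1) (F : (ι → Bool) → ℝ) (x : ι → Bool) :
    F x = ∑ S : Finset ι, fc p F S * chi p S x := by
  have h : ∑ S : Finset ι, fc p F S * chi p S x
      = ∑ y, F y * (wt p y * ∑ S : Finset ι, chi p S y * chi p S x) := by
    unfold fc ex
    simp only [sum_mul, mul_sum]
    rw [sum_comm]
    apply sum_congr rfl
    intro y _
    apply sum_congr rfl
    intro S _
    ring
  rw [h]
  simp only [sum_chi_mul_chi h0 h1, mul_ite, mul_zero, mul_one]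
  rw [sum_ite_eq' univ x]
  simp

/-- Plancherel. -/
lemma plancherel {p : ℝ} (h0 : 0 < p) (h1 : p < 1) (F G : (ι → Bool) → ℝ) :
    ex p (fun x => F x * G x) = ∑ S : Finset ι, fc p F S * fc p G S := by
  have h : ∀ x, F x * G x = ∑ S : Finset ι, fc p F S * (G x * chi p S x) := by
    intro x
    conv_lhs => rw [fourier_inversion h0 h1 F x]
    rw [sum_mul]
    apply sum_congr rfl
    intro S _
    ring
  rw [ex_congr h, ex_sum]
  apply sum_congr rfl
  intro S _
  rw [ex_const_mul]
  rfl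

lemma parseval {p : ℝ} (h0 : 0 < p) (h1 : p < 1) (F : (ι → Bool) → ℝ) :
    ex p (fun x => F x ^ 2) = ∑ S : Finset ι, fc p F S ^ 2 := by
  simp only [sq]
  exact plancherel h0 h1 F F

lemma fc_sub (p : ℝ) (F G : (ι → Bool) → ℝ) (S : Finset ι) :
    fc p (fun x => F x - G x) S = fc p F S - fc p G S := by
  unfold fc
  rw [← ex_sub]
  apply ex_congr; intro x; ring

lemma fc_empty (p : ℝ) (F : (ι → Bool) → ℝ) : fc p F ∅ = ex p F := by
  unfold fc; apply ex_congr; intro x; rw [chi_empty, mul_one]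

/-- The coefficients of an explicit sum of characters. -/
lemma fc_charSum {p : ℝ} (h0 : 0 < p) (h1 : p < 1) (𝒮 : Finset (Finset ι)) (c : Finset ι → ℝ)
    (U : Finset ι) :
    fc p (fun x => ∑ S ∈ 𝒮, c S * chi p S x) U = if U ∈ 𝒮 then c U else 0 := by
  unfold fc
  have : ∀ x : ι → Bool, (∑ S ∈ 𝒮, c S * chi p S x) * chi p U x
      = ∑ S ∈ 𝒮, c S * (chi p S x * chi p U x) := by
    intro x
    rw [sum_mul]
    apply sum_congr rfl
    intro T _; ring
  rw [ex_congr this, ex_sum]
  simp only [ex_const_mul, ex_chi_mul_chi h0 h1]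
  simp

lemma parseval_charSum {p : ℝ} (h0 : 0 < p) (h1 : p < 1) (𝒮 : Finset (Finset ι))
    (c : Finset ι → ℝ) :
    ex p (fun x => (∑ S ∈ 𝒮, c S * chi p S x) ^ 2) = ∑ S ∈ 𝒮, c S ^ 2 := by
  rw [parseval h0 h1]
  simp only [fc_charSum h0 h1]
  rw [← sum_filter_add_sum_filter_not univ (fun S => S ∈ 𝒮)]
  have e1 : ∑ S ∈ univ.filter (fun S => S ∈ 𝒮), (if S ∈ 𝒮 then c S else 0) ^ 2
      = ∑ S ∈ 𝒮, c S ^ 2 := by
    have : univ.filter (fun S => S ∈ 𝒮) = 𝒮 := by ext S; simp
    rw [this]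
    apply sum_congr rfl
    intro S hS
    rw [if_pos hS]
  have e2 : ∑ S ∈ univ.filter (fun S => ¬ S ∈ 𝒮), (if S ∈ 𝒮 then c S else 0) ^ 2 = 0 := by
    apply sum_eq_zero
    intro S hS
    rw [if_neg (mem_filter.mp hS).2]; norm_num
  rw [e1, e2, add_zero]

end Vale.Agent.P063
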