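import Vale.Agent.Lib.P063.Block
import Vale.Agent.Lib.P063.Comb

/-!
Vertex blocks in a hypergraph property: Fourier mass on edge sets having a vertex of low degree.
-/

set_option autoImplicit false

namespace Vale.Agent.P063

open Finset

variable {n r : ℕ}

/-- The action of a vertex permutation on the edges as a permutation. -/
def permEdgeEquiv (σ : Equiv.Perm (Fin n)) : Equiv.Perm (Edge n r) where
  toFun := permEdge σ
  invFun := permEdge σ.symm
  left_inv := by
    intro e
    apply Subtype.ext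
    change (e.1.map σ.toEmbedding).map σ.symm.toEmbedding = e.1
    rw [map_map]
    have h3 : σ.toEmbedding.trans σ.symm.toEmbedding = Function.Embedding.refl _ := by
      ext i; simp
    rw [h3, map_refl]
  right_inv := by
    intro e
    apply Subtype.ext
    change (e.1.map σ.symm.toEmbedding).map σ.toEmbedding = e.1
    rw [map_map]
    have h3 : σ.symm.toEmbedding.trans σ.toEmbedding = Function.Embedding.refl _ := by
      ext i; simp
    rw [h3, map_refl]

lemma permEdgeEquiv_val (σ : Equiv.Perm (Fin n)) (e : Edge n r) :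
    (permEdgeEquiv σ e).1 = e.1.map σ.toEmbedding := rfl

/-- The edges which avoid `A`. -/
def offE (n r : ℕ) (A : Finset (Fin n)) : Finset (Edge n r) :=
  univ.filter fun e => e.1 ∩ A = ∅

/-- The edges which meet `A` exactly in `a`. -/
def atE (n r : ℕ) (A : Finset (Fin n)) (a : Fin n) : Finset (Edge n r) :=
  univ.filter fun e => e.1 ∩ A = {a}

lemma mem_offE {A : Finset (Fin n)} {e : Edge n r} : e ∈ offE n r A ↔ e.1 ∩ A = ∅ := by
  simp [offE]

lemma mem_atE {A : Finset (Fin n)} {a : Fin n} {e : Edge n r} :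
    e ∈ atE n r A a ↔ e.1 ∩ A = {a} := by
  simp [atE]

lemma disjoint_off_at (A : Finset (Fin n)) (a : Fin n) : Disjoint (offE n r A) (atE n r A a) := by
  rw [Finset.disjoint_left]
  intro e h1 h2
  rw [mem_offE] at h1
  rw [mem_atE, h1] at h2
  exact absurd h2.symm (singleton_ne_empty a)

lemma disjoint_at_at (A : Finset (Fin n)) {a b : Fin n} (hab : a ≠ b) :
    Disjoint (atE n r A a) (atE n r A b) := by
  rw [Finset.disjoint_left]
  intro e h1 h2
  rw [mem_atE] at h1 h2
  rw [h1] at h2
  exact hab (singleton_inj.mp h2)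

lemma map_swap_of_mem {A : Finset (Fin n)} {a b : Fin n} (ha : a ∈ A) (hb : b ∈ A) :
    A.map (Equiv.swap a b).toEmbedding = A := by
  ext i
  rw [mem_map_equiv]
  rw [Equiv.symm_swap]
  by_cases hia : i = a
  · subst hia; rw [Equiv.swap_apply_left]; exact ⟨fun _ => ha, fun _ => hb⟩
  by_cases hib : i = b
  · subst hib; rw [Equiv.swap_apply_right]; exact ⟨fun _ => hb, fun _ => ha⟩
  rw [Equiv.swap_apply_of_ne_of_ne hia hib]

lemma map_inter_swap {A : Finset (Fin n)} {a b : Fin n} (ha : a ∈ A) (hb : b ∈ A)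
    (e : Finset (Fin n)) :
    e.map (Equiv.swap a b).toEmbedding ∩ A = (e ∩ A).map (Equiv.swap a b).toEmbedding := by
  rw [map_inter]
  rw [map_swap_of_mem ha hb]

lemma perm_off {A : Finset (Fin n)} {a b : Fin n} (ha : a ∈ A) (hb : b ∈ A) (e : Edge n r)
    (he : e ∈ offE n r A) : permEdgeEquiv (Equiv.swap a b) e = e := by
  apply Subtype.ext
  rw [permEdgeEquiv_val]
  rw [mem_offE] at he
  have hia : a ∉ e.1 := fun h => by
    have : a ∈ e.1 ∩ A := mem_inter.mpr ⟨h, ha⟩
    rw [he] at this; exact absurd this (notMem_empty a)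
  have hib : b ∉ e.1 := fun h => by
    have : b ∈ e.1 ∩ A := mem_inter.mpr ⟨h, hb⟩
    rw [he] at this; exact absurd this (notMem_empty b)
  ext i
  rw [mem_map_equiv, Equiv.symm_swap]
  by_cases h1 : i = a
  · subst h1; rw [Equiv.swap_apply_left]; exact ⟨fun h => absurd h hib, fun h => absurd h hia⟩
  by_cases h2 : i = b
  · subst h2; rw [Equiv.swap_apply_right]; exact ⟨fun h => absurd h hia, fun h => absurd h hib⟩
  rw [Equiv.swap_apply_of_ne_of_ne h1 h2]

lemma perm_off_iff {A : Finset (Fin n)} {a b : Fin n} (ha : a ∈ A) (hb : b ∈ A) (e : Edge n r) :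
    permEdgeEquiv (Equiv.swap a b) e ∈ offE n r A ↔ e ∈ offE n r A := by
  rw [mem_offE, mem_offE, permEdgeEquiv_val, map_inter_swap ha hb, map_eq_empty]

lemma map_at {A : Finset (Fin n)} {a b : Fin n} (ha : a ∈ A) (hb : b ∈ A) :
    (atE n r A a).map (permEdgeEquiv (Equiv.swap a b)).toEmbedding = atE n r A b := by
  ext e
  rw [mem_map_equiv]
  have hsymm : (permEdgeEquiv (n := n) (r := r) (Equiv.swap a b)).symm
      = permEdgeEquiv (Equiv.swap a b) := by
    ext e : 1
    change permEdge (Equiv.swap a b).symm e = permEdge (Equiv.swap a b) e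
    rw [Equiv.symm_swap]
  rw [hsymm, mem_atE, mem_atE, permEdgeEquiv_val, map_inter_swap ha hb]
  constructor
  · intro h
    have h2 := congrArg (fun s => s.map (Equiv.swap a b).toEmbedding) h
    simp only [map_map, map_singleton] at h2
    have h3 : (Equiv.swap a b).toEmbedding.trans (Equiv.swap a b).toEmbedding
        = Function.Embedding.refl _ := by
      ext i; simp
    rw [h3, map_refl] at h2
    rw [h2]
    simp
  · intro h
    rw [h, map_singleton]
    simp

variable {p : ℝ}

/-- The Fourier mass of the edge sets which meet `A` in exactly one vertex, of low degree. -/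
theorem block_hyper (h0 : 0 < p) (h1 : p < 1) (F : HGraph n r → ℝ)
    (hF : ∀ x, F x = 0 ∨ F x = 1)
    (hinv : ∀ (σ : Equiv.Perm (Fin n)) (x : HGraph n r), F (fun e => x (permEdge σ e)) = F x)
    (A : Finset (Fin n)) (hA : A.Nonempty) (k : ℕ) :
    ∑ a ∈ A, ∑ T ∈ famk (atE n r A a) k, ∑ S ∈ (offE n r A).powerset, fc p F (S ∪ T) ^ 2
      ≤ 2 * (2 / sd p) ^ k * (1 / Real.sqrt A.card)
        * ∑ S : Finset (Edge n r), (S.card : ℝ) * fc p F S ^ 2 := by
  have hApos : (0:ℝ) < A.card := by exact_mod_cast hA.card_pos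
  apply block_main h0 h1 A (offE n r A) (atE n r A) (fun a _ => disjoint_off_at A a)
    (fun a _ b _ hab => disjoint_at_at A hab) F hF k (by positivity)
  intro a ha x
  have hdiv : (1 / Real.sqrt A.card) ^ 2 = 1 / (A.card : ℝ) := by
    rw [div_pow, one_pow, Real.sq_sqrt hApos.le]
  rw [hdiv, le_div_iff₀ hApos, mul_comm]
  apply block_mass h0 h1 A (atE n r A) (fun a _ b _ hab => disjoint_at_at A hab)
    (fun y => F (mix (offE n r A) x y)) _ _ a ha
  · intro y
    rcases hF (mix (offE n r A) x y) with h | h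
    · rw [h]; norm_num
    · rw [h]; norm_num
  · intro b hb c hc
    refine ⟨permEdgeEquiv (Equiv.swap b c), map_at hb hc, ?_⟩
    intro y
    rw [← hinv (Equiv.swap b c) (mix (offE n r A) x y)]
    congr 1
    funext e
    change mix (offE n r A) x (fun i => y (permEdgeEquiv (Equiv.swap b c) i)) e
      = mix (offE n r A) x y (permEdgeEquiv (Equiv.swap b c) e)
    by_cases he : e ∈ offE n r A
    · rw [mix_mem he, perm_off hb hc e he, mix_mem he]
    · have he2 : permEdgeEquiv (Equiv.swap b c) e ∉ offE n r A :=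
        fun h => he ((perm_off_iff hb hc e).mp h)
      rw [mix_notMem he, mix_notMem he2]

/-- The same for a family of edge sets with a distinguished vertex. -/
theorem low_mass_A (h0 : 0 < p) (h1 : p < 1) (F : HGraph n r → ℝ)
    (hF : ∀ x, F x = 0 ∨ F x = 1)
    (hinv : ∀ (σ : Equiv.Perm (Fin n)) (x : HGraph n r), F (fun e => x (permEdge σ e)) = F x)
    (A : Finset (Fin n)) (hA : A.Nonempty) (k : ℕ) (𝒮 : Finset (Finset (Edge n r)))
    (v : Finset (Edge n r) → Fin n) (hv : ∀ S ∈ 𝒮, v S ∈ verts S ∧ deg S (v S) ≤ k) :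
    ∑ S ∈ 𝒮.filter (fun S => A ∩ verts S = {v S}), fc p F S ^ 2
      ≤ 2 * (2 / sd p) ^ k * (1 / Real.sqrt A.card)
        * ∑ S : Finset (Edge n r), (S.card : ℝ) * fc p F S ^ 2 := by
  refine le_trans ?_ (block_hyper h0 h1 F hF hinv A hA k)
  have hmaps : ∀ S ∈ 𝒮.filter (fun S => A ∩ verts S = {v S}), v S ∈ A := by
    intro S hS
    have h2 := (mem_filter.mp hS).2
    have : v S ∈ A ∩ verts S := by rw [h2]; exact mem_singleton_self _
    exact (mem_inter.mp this).1
  rw [← sum_fiberwise_of_maps_to hmaps]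
  apply sum_le_sum
  intro a ha
  rw [← sum_product']
  -- decompose S
  have hdec : ∀ S ∈ (𝒮.filter (fun S => A ∩ verts S = {v S})).filter (fun S => v S = a),
      (S ∩ atE n r A a ∈ famk (atE n r A a) k) ∧ S ∩ offE n r A ∪ S ∩ atE n r A a = S := by
    intro S hS
    obtain ⟨hS1, hS2⟩ := mem_filter.mp hS
    obtain ⟨hS3, hS4⟩ := mem_filter.mp hS1
    rw [hS2] at hS4
    obtain ⟨hv1, hv2⟩ := hv S hS3
    rw [hS2] at hv1 hv2
    have hsub : ∀ e ∈ S, e.1 ∩ A ⊆ {a} := by
      intro e he i hi
      rw [← hS4]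
      rw [mem_inter] at hi ⊢
      exact ⟨hi.2, mem_biUnion.mpr ⟨e, he, hi.1⟩⟩
    have hat : ∀ e ∈ S, a ∈ e.1 → e ∈ atE n r A a := by
      intro e he hae
      rw [mem_atE]
      apply Subset.antisymm (hsub e he)
      rw [singleton_subset_iff]
      exact mem_inter.mpr ⟨hae, ha⟩
    have hoff : ∀ e ∈ S, a ∉ e.1 → e ∈ offE n r A := by
      intro e he hae
      rw [mem_offE]
      rcases subset_singleton_iff.mp (hsub e he) with h | h
      · exact h
      · exfalso
        have : a ∈ e.1 ∩ A := by rw [h]; exact mem_singleton_self a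
        exact hae (mem_inter.mp this).1
    have heq : S ∩ atE n r A a = S.filter (fun e => a ∈ e.1) := by
      ext e
      rw [mem_inter, mem_filter]
      constructor
      · rintro ⟨he, he2⟩
        refine ⟨he, ?_⟩
        rw [mem_atE] at he2
        have : a ∈ e.1 ∩ A := by rw [he2]; exact mem_singleton_self a
        exact (mem_inter.mp this).1
      · rintro ⟨he, he2⟩
        exact ⟨he, hat e he he2⟩
    constructor
    · rw [mem_famk]
      refine ⟨inter_subset_right, ?_, ?_⟩
      · obtain ⟨e, he, hae⟩ := mem_biUnion.mp hv1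
        exact ⟨e, mem_inter.mpr ⟨he, hat e he hae⟩⟩
      · rw [heq]; exact hv2
    · ext e
      rw [mem_union, mem_inter, mem_inter]
      constructor
      · rintro (h | h)
        · exact h.1
        · exact h.1
      · intro he
        by_cases hae : a ∈ e.1
        · exact Or.inr ⟨he, hat e he hae⟩
        · exact Or.inl ⟨he, hoff e he hae⟩
  set 𝒯 := (𝒮.filter (fun S => A ∩ verts S = {v S})).filter (fun S => v S = a) with h𝒯
  have hinj : Set.InjOn (fun S : Finset (Edge n r) => (S ∩ atE n r A a, S ∩ offE n r A)) 𝒯 := by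
    intro S hS S' hS' h
    have h3 := (hdec S hS).2
    have h4 := (hdec S' hS').2
    simp only [Prod.mk.injEq] at h
    rw [← h3, ← h4, h.1, h.2]
  calc ∑ S ∈ 𝒯, fc p F S ^ 2
      = ∑ S ∈ 𝒯, fc p F ((S ∩ atE n r A a, S ∩ offE n r A).2 ∪ (S ∩ atE n r A a, S ∩ offE n r A).1) ^ 2 := by
        apply sum_congr rfl
        intro S hS
        rw [(hdec S hS).2]
    _ = ∑ q ∈ 𝒯.image (fun S : Finset (Edge n r) => (S ∩ atE n r A a, S ∩ offE n r A)),
          fc p F (q.2 ∪ q.1) ^ 2 := by
        rw [sum_image hinj]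
    _ ≤ _ := by
        apply sum_le_sum_of_subset_of_nonneg
        · intro q hq
          obtain ⟨S, hS, rfl⟩ := mem_image.mp hq
          rw [mem_product]
          exact ⟨(hdec S hS).1, mem_powerset.mpr inter_subset_right⟩
        · intro q _ _
          exact sq_nonneg _

end Vale.Agent.P063
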