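import Vale.Agent.Lib.P063.Main

/-!
The total influence of a hypergraph property which need not be increasing.
-/

set_option autoImplicit false

namespace Vale.Agent.P063

open Finset

variable {n r : ℕ}

open Classical in
/-- The total influence: the sum over the edges `e` of the probability that the membership in `P`
of the random hypergraph depends on whether `e` is present. -/
noncomputable def totalInfluence (P : Set (HGraph n r)) (p : ℝ) : ℝ :=
  ∑ e : Edge n r, ∑ x : HGraph n r,
    if (Function.update x e true ∈ P ↔ Function.update x e false ∈ P) then 0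
    else ∏ f, (if x f = true then p else 1 - p)

open Classical in
lemma infl_eq {p : ℝ} (h0 : 0 < p) (h1 : p < 1) (P : Set (HGraph n r)) :
    ∑ S : Finset (Edge n r), (S.card : ℝ) * fc p (P.indicator (fun _ => (1:ℝ))) S ^ 2
      = sd p ^ 2 * totalInfluence P p := by
  have hp := sd_pos h0 h1
  set F : HGraph n r → ℝ := P.indicator (fun _ => (1:ℝ)) with hFdef
  have hF1 : ∀ x, x ∈ P → F x = 1 := fun x hx => by rw [hFdef, Set.indicator_of_mem hx]
  have hF0 : ∀ x, x ∉ P → F x = 0 := fun x hx => by rw [hFdef, Set.indicator_of_notMem hx]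
  have e1 : ∀ e : Edge n r, ex p (fun x => dd F e x ^ 2)
      = ∑ T ∈ univ.filter (fun T : Finset (Edge n r) => e ∉ T), (fc p F (insert e T) / sd p) ^ 2 := by
    intro e
    rw [← parseval_charSum h0 h1]
    apply ex_congr
    intro x
    rw [dd_eq h0 h1]
  have e2 : ∀ e : Edge n r, ex p (fun x => dd F e x ^ 2)
      = ∑ x : HGraph n r, if (Function.update x e true ∈ P ↔ Function.update x e false ∈ P) then 0
        else ∏ f, (if x f = true then p else 1 - p) := by
    intro e
    unfold ex
    apply sum_congr rfl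
    intro x _
    have hwt : wt p x = ∏ f, (if x f = true then p else 1 - p) := rfl
    rw [← hwt]
    change wt p x * (F (Function.update x e true) - F (Function.update x e false)) ^ 2 = _
    by_cases ht : Function.update x e true ∈ P <;> by_cases hf : Function.update x e false ∈ P
    · rw [hF1 _ ht, hF1 _ hf, if_pos (by tauto)]; ring
    · rw [hF1 _ ht, hF0 _ hf, if_neg (by tauto)]; ring
    · rw [hF0 _ ht, hF1 _ hf, if_neg (by tauto)]; ring
    · rw [hF0 _ ht, hF0 _ hf, if_pos (by tauto)]; ring
  have e3 : ∀ S : Finset (Edge n r), (S.card : ℝ) * fc p F S ^ 2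
      = ∑ e : Edge n r, if e ∈ S then fc p F S ^ 2 else 0 := by
    intro S
    rw [← sum_filter, sum_const, nsmul_eq_mul]
    congr 3
    ext i; simp
  rw [sum_congr rfl (fun S _ => e3 S), sum_comm]
  unfold totalInfluence
  rw [mul_sum]
  apply sum_congr rfl
  intro e _
  rw [← e2 e, e1 e, sum_split e]
  have e4 : ∑ T ∈ univ.filter (fun T : Finset (Edge n r) => e ∉ T),
      (if e ∈ T then fc p F T ^ 2 else 0) = 0 := by
    apply sum_eq_zero
    intro T hT
    rw [if_neg (mem_filter.mp hT).2]
  rw [e4, zero_add, mul_sum]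
  apply sum_congr rfl
  intro T _
  rw [if_pos (mem_insert_self e T)]
  field_simp

/-- The bound for the total influence of an arbitrary hypergraph property. -/
theorem influence_bound (hr : 2 ≤ r) (hn : r ≤ n) (P : Set (HGraph n r)) (hprop : IsProperty P)
    {p : ℝ} (h0 : 0 < p) (h1 : p < 1) :
    (Real.log n) ^ ((r : ℝ) / ((r : ℝ) - 1)) * (mu P p * (1 - mu P p))
      ≤ 16384 * r * totalInfluence P p := by
  classical
  set F : HGraph n r → ℝ := P.indicator (fun _ => (1:ℝ)) with hFdef
  have hF : ∀ x, F x = 0 ∨ F x = 1 := by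
    intro x
    by_cases hx : x ∈ P
    · right; rw [hFdef, Set.indicator_of_mem hx]
    · left; rw [hFdef, Set.indicator_of_notMem hx]
  have hinv : ∀ (σ : Equiv.Perm (Fin n)) (x : HGraph n r), F (fun e => x (permEdge σ e)) = F x := by
    intro σ x
    by_cases hx : x ∈ P
    · rw [hFdef, Set.indicator_of_mem hx, Set.indicator_of_mem ((hprop σ x).mpr hx)]
    · rw [hFdef, Set.indicator_of_notMem hx,
        Set.indicator_of_notMem (fun h => hx ((hprop σ x).mp h))]
  have hmu : mu P p = ex p F := mu_eq_ex P p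
  have hs := sd_pos h0 h1
  have hs2 := sd_le_half h0 h1
  have hJ := infl_eq h0 h1 P
  rw [← hFdef] at hJ
  set D : ℝ := totalInfluence P p with hD
  set J : ℝ := ∑ S : Finset (Edge n r), (S.card : ℝ) * fc p F S ^ 2 with hJdef
  have hJ0 : 0 ≤ J := sum_nonneg fun S _ => mul_nonneg (Nat.cast_nonneg _) (sq_nonneg _)
  have hD0 : 0 ≤ D := by
    have h2 : 0 < sd p ^ 2 := by positivity
    rw [hJ] at hJ0
    exact nonneg_of_mul_nonneg_right hJ0 h2
  have hr0 : (2:ℝ) ≤ r := by exact_mod_cast hr
  have hn2 : 2 ≤ n := le_trans hr hn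
  have hnR : (1:ℝ) < n := by exact_mod_cast (lt_of_lt_of_le one_lt_two hn2)
  have hL : 0 < Real.log n := Real.log_pos hnR
  set θ : ℝ := (r : ℝ) / ((r : ℝ) - 1) with hθdef
  have hθ0 : 0 ≤ θ := div_nonneg (by linarith) (by linarith)
  have hθ2 : θ ≤ 2 := by rw [hθdef, div_le_iff₀ (by linarith)]; linarith
  have hLθ : 0 < Real.log n ^ θ := Real.rpow_pos_of_pos hL θ
  have hexpL : Real.exp (Real.log n) = n := Real.exp_log (by linarith)
  have hexpL2 : Real.exp (Real.log n / 2) = Real.sqrt n := by
    rw [Real.exp_half, hexpL]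
  have hsuff : ∀ B : ℝ, ex p F * (1 - ex p F) ≤ B * J → sd p ^ 2 * B * Real.log n ^ θ ≤ 16384 * r →
      Real.log n ^ θ * (mu P p * (1 - mu P p)) ≤ 16384 * r * D := by
    intro B hB hB2
    rw [hmu]
    calc Real.log n ^ θ * (ex p F * (1 - ex p F)) ≤ Real.log n ^ θ * (B * J) :=
          mul_le_mul_of_nonneg_left hB hLθ.le
      _ = (sd p ^ 2 * B * Real.log n ^ θ) * D := by rw [hJ]; ring
      _ ≤ (16384 * r) * D := mul_le_mul_of_nonneg_right hB2 hD0
  have hlogK : 0 < 4 * Real.log (2 / sd p) := by
    have : 1 < 2 / sd p := by rw [lt_div_iff₀ hs]; linarith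
    have := Real.log_pos this
    linarith
  by_cases hk : Real.log n < 4 * Real.log (2 / sd p)
  · apply hsuff 1
    · rw [var_eq h0 h1 F hF, one_mul, hJdef]
      refine le_trans ?_ (sum_le_sum_of_subset_of_nonneg (subset_univ (univ.erase ∅))
        (fun S _ _ => mul_nonneg (Nat.cast_nonneg _) (sq_nonneg _)))
      apply sum_le_sum
      intro S hS
      have hSne : S.Nonempty := nonempty_iff_ne_empty.mpr (mem_erase.mp hS).1
      have : (1:ℝ) ≤ S.card := by exact_mod_cast hSne.card_pos
      nlinarith [sq_nonneg (fc p F S)]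
    · have := num_small hL hs hθ0 hθ2 hk
      rw [mul_one]
      linarith
  · push Not at hk
    set k : ℕ := ⌊Real.log n / (4 * Real.log (2 / sd p))⌋₊ with hkdef
    have hx0 : 0 ≤ Real.log n / (4 * Real.log (2 / sd p)) := by positivity
    have hk1 : (k:ℝ) ≤ Real.log n / (4 * Real.log (2 / sd p)) := Nat.floor_le hx0
    have hk2 : Real.log n / (4 * Real.log (2 / sd p)) < k + 1 := Nat.lt_floor_add_one _
    have hk1' : 1 ≤ k := by
      rw [hkdef, Nat.one_le_floor_iff]
      rw [le_div_iff₀ hlogK]; linarith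
    obtain ⟨hnum, hnum2⟩ := num_main (ρ := r) hs hs2 (by linarith) hθ0 hθ2 hk1' hk1 hk2
    rw [hexpL] at hnum2
    rw [hexpL2] at hnum
    have hkn : 2 * k ^ 2 ≤ n := by exact_mod_cast hnum2
    apply hsuff _ (var_le hr h0 h1 F hF hinv k hk1' hkn)
    linarith

end Vale.Agent.P063
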