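import Vale.Agent.Lib.P063.Fourier
import Vale.Agent.Lib.P063.Defs

/-!
Russo's formula in Fourier form, and basic properties of `mu`.
-/

set_option autoImplicit false
set_option linter.unusedSectionVars false

namespace Vale.Agent.P063

open Finset

variable {ι : Type} [Fintype ι] [DecidableEq ι]

lemma bw_mul_ph_div {p : ℝ} (h0 : 0 < p) (h1 : p < 1) (b : Bool) :
    bw p b * ph p b / sd p = if b = true then 1 else -1 := by
  have hs := sd_sq h0 h1
  have hp := sd_pos h0 h1
  have hpp : p * (1 - p) ≠ 0 := (mul_pos h0 (by linarith)).ne'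
  cases b
  · rw [ph_false]
    simp only [bw, Bool.false_eq_true, if_false]
    rw [div_eq_iff hp.ne', mul_div_assoc', div_eq_iff hp.ne']
    nlinarith
  · rw [ph_true]
    simp only [bw, if_true]
    rw [div_eq_iff hp.ne', mul_div_assoc', div_eq_iff hp.ne']
    nlinarith

lemma hasDerivAt_bw {p : ℝ} (h0 : 0 < p) (h1 : p < 1) (b : Bool) :
    HasDerivAt (fun q => bw q b) (bw p b * ph p b / sd p) p := by
  rw [bw_mul_ph_div h0 h1]
  cases b
  · simp only [bw, Bool.false_eq_true, if_false]
    simpa using (hasDerivAt_id' p).const_sub 1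
  · simp only [bw, if_true]
    exact hasDerivAt_id' p

lemma hasDerivAt_wt {p : ℝ} (h0 : 0 < p) (h1 : p < 1) (x : ι → Bool) :
    HasDerivAt (fun q => wt q x) (wt p x * ((∑ i, ph p (x i)) / sd p)) p := by
  have h := HasDerivAt.fun_finsetProd (u := (Finset.univ : Finset ι))
    (f := fun i q => bw q (x i)) (f' := fun i => bw p (x i) * ph p (x i) / sd p) (x := p)
    (fun i _ => hasDerivAt_bw h0 h1 (x i))
  refine h.congr_deriv ?_
  rw [Finset.sum_div, Finset.mul_sum]
  apply Finset.sum_congr rfl
  intro i _
  unfold wt
  rw [← Finset.mul_prod_erase Finset.univ (fun j => bw p (x j)) (Finset.mem_univ i), smul_eq_mul]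
  ring

/-- Russo's formula in Fourier form. -/
theorem hasDerivAt_ex {p : ℝ} (h0 : 0 < p) (h1 : p < 1) (F : (ι → Bool) → ℝ) :
    HasDerivAt (fun q => ex q F) ((∑ i, fc p F {i}) / sd p) p := by
  have h : HasDerivAt (fun q => ex q F)
      (∑ x : ι → Bool, wt p x * ((∑ i, ph p (x i)) / sd p) * F x) p := by
    unfold ex
    apply HasDerivAt.fun_sum
    intro x _
    exact (hasDerivAt_wt h0 h1 x).mul_const (F x)
  refine h.congr_deriv ?_
  unfold fc ex
  rw [Finset.sum_comm, Finset.sum_div]
  apply Finset.sum_congr rfl
  intro x _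
  have : ∀ i, chi p {i} x = ph p (x i) := fun i => by simp [chi]
  simp only [this]
  rw [← Finset.mul_sum, ← Finset.mul_sum]
  ring

/-- the discrete derivative -/
noncomputable def dd (F : (ι → Bool) → ℝ) (i : ι) (x : ι → Bool) : ℝ :=
  F (Function.update x i true) - F (Function.update x i false)

lemma chi_update_of_mem (p : ℝ) {S : Finset ι} {i : ι} (hi : i ∉ S) (x : ι → Bool) (b : Bool) :
    chi p (insert i S) (Function.update x i b) = ph p b * chi p S x := by
  rw [chi_insert p hi, Function.update_self]
  congr 1
  unfold chi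
  apply Finset.prod_congr rfl
  intro j hj
  have : j ≠ i := fun h => hi (h ▸ hj)
  rw [Function.update_of_ne this]

lemma chi_update_of_notMem (p : ℝ) {S : Finset ι} {i : ι} (hi : i ∉ S) (x : ι → Bool)
    (b : Bool) : chi p S (Function.update x i b) = chi p S x := by
  unfold chi
  apply Finset.prod_congr rfl
  intro j hj
  have : j ≠ i := fun h => hi (h ▸ hj)
  rw [Function.update_of_ne this]

/-- splitting a sum over all sets according to membership of `i` -/
lemma sum_split (i : ι) (g : Finset ι → ℝ) :
    ∑ S : Finset ι, g S = ∑ T ∈ univ.filter (fun T : Finset ι => i ∉ T), g T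
      + ∑ T ∈ univ.filter (fun T : Finset ι => i ∉ T), g (insert i T) := by
  rw [← Finset.sum_filter_add_sum_filter_not univ (fun S : Finset ι => i ∉ S)]
  congr 1
  symm
  refine Finset.sum_bij' (fun T _ => insert i T) (fun S _ => S.erase i) ?_ ?_ ?_ ?_ ?_
  · intro T hT
    rw [mem_filter]
    exact ⟨mem_univ _, fun h => h (Finset.mem_insert_self i T)⟩
  · intro S hS
    rw [mem_filter]
    exact ⟨mem_univ _, Finset.notMem_erase i S⟩
  · intro T hT
    exact Finset.erase_insert (mem_filter.1 hT).2
  · intro S hS
    apply Finset.insert_erase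
    have := (mem_filter.1 hS).2
    simpa using this
  · intro T _
    rfl

lemma dd_eq {p : ℝ} (h0 : 0 < p) (h1 : p < 1) (F : (ι → Bool) → ℝ) (i : ι) (x : ι → Bool) :
    dd F i x = ∑ T ∈ univ.filter (fun T : Finset ι => i ∉ T),
      (fc p F (insert i T) / sd p) * chi p T x := by
  unfold dd
  rw [fourier_inversion h0 h1 F (Function.update x i true),
    fourier_inversion h0 h1 F (Function.update x i false), sum_split i, sum_split i]
  have e1 : ∀ b : Bool, ∑ T ∈ univ.filter (fun T : Finset ι => i ∉ T),
      fc p F T * chi p T (Function.update x i b)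
      = ∑ T ∈ univ.filter (fun T : Finset ι => i ∉ T), fc p F T * chi p T x := by
    intro b
    apply Finset.sum_congr rfl
    intro T hT
    rw [chi_update_of_notMem p (mem_filter.1 hT).2]
  have e2 : ∀ b : Bool, ∑ T ∈ univ.filter (fun T : Finset ι => i ∉ T),
      fc p F (insert i T) * chi p (insert i T) (Function.update x i b)
      = ∑ T ∈ univ.filter (fun T : Finset ι => i ∉ T),
        fc p F (insert i T) * (ph p b * chi p T x) := by
    intro b
    apply Finset.sum_congr rfl
    intro T hT
    rw [chi_update_of_mem p (mem_filter.1 hT).2]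
  rw [e1, e1, e2, e2, add_sub_add_left_eq_sub, ← Finset.sum_sub_distrib]
  apply Finset.sum_congr rfl
  intro T _
  have := ph_diff (p := p)
  calc fc p F (insert i T) * (ph p true * chi p T x) - fc p F (insert i T) * (ph p false * chi p T x)
      = fc p F (insert i T) * chi p T x * (ph p true - ph p false) := by ring
    _ = fc p F (insert i T) / sd p * chi p T x := by rw [this]; ring

lemma sum_mem_sq {p : ℝ} (h0 : 0 < p) (h1 : p < 1) (F : (ι → Bool) → ℝ)
    (hF : ∀ x, F x = 0 ∨ F x = 1)
    (hmono : ∀ x y : ι → Bool, (∀ i, x i = true → y i = true) → F x ≤ F y) (i : ι) :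
    ∑ T ∈ univ.filter (fun T : Finset ι => i ∉ T), fc p F (insert i T) ^ 2
      = sd p * fc p F {i} := by
  have hp := sd_pos h0 h1
  have hD : ∀ x, dd F i x ^ 2 = dd F i x := by
    intro x
    have hle : F (Function.update x i false) ≤ F (Function.update x i true) := by
      apply hmono
      intro j hj
      rcases eq_or_ne j i with rfl | hne
      · simp
      · rw [Function.update_of_ne hne] at hj ⊢
        exact hj
    unfold dd
    rcases hF (Function.update x i true) with ht | ht
    · rcases hF (Function.update x i false) with hf | hf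
      · rw [ht, hf]; norm_num
      · rw [ht, hf] at hle; norm_num at hle
    · rcases hF (Function.update x i false) with hf | hf
      · rw [ht, hf]; norm_num
      · rw [ht, hf]; norm_num
  have h1' : ex p (fun x => dd F i x ^ 2)
      = ∑ T ∈ univ.filter (fun T : Finset ι => i ∉ T), (fc p F (insert i T) / sd p) ^ 2 := by
    rw [← parseval_charSum h0 h1]
    apply ex_congr
    intro x
    rw [dd_eq h0 h1]
  have h2 : ex p (fun x => dd F i x) = fc p F {i} / sd p := by
    rw [ex_congr (dd_eq h0 h1 F i), ← fc_empty, fc_charSum h0 h1]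
    simp
  rw [ex_congr hD, h2] at h1'
  simp only [div_pow] at h1'
  rw [← Finset.sum_div] at h1'
  rw [div_eq_div_iff hp.ne' (by positivity)] at h1'
  have h3 : sd p * (fc p F {i} * sd p) = sd p *
      (∑ T ∈ univ.filter (fun T : Finset ι => i ∉ T), fc p F (insert i T) ^ 2) / sd p ^ 0 := by
    rw [pow_zero, div_one]
    have : fc p F {i} * sd p ^ 2 = (∑ T ∈ univ.filter (fun T : Finset ι => i ∉ T),
      fc p F (insert i T) ^ 2) * sd p := h1'
    rw [mul_comm (sd p) (∑ T ∈ univ.filter (fun T : Finset ι => i ∉ T), _), ← this]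
    ring
  rw [pow_zero, div_one] at h3
  have h4 := mul_left_cancel₀ hp.ne' h3
  rw [← h4]
  ring

theorem sum_card_mul_sq {p : ℝ} (h0 : 0 < p) (h1 : p < 1) (F : (ι → Bool) → ℝ)
    (hF : ∀ x, F x = 0 ∨ F x = 1)
    (hmono : ∀ x y : ι → Bool, (∀ i, x i = true → y i = true) → F x ≤ F y) :
    ∑ S : Finset ι, (S.card : ℝ) * fc p F S ^ 2 = sd p * ∑ i, fc p F {i} := by
  rw [Finset.mul_sum]
  have e1 : ∀ S : Finset ι, (S.card : ℝ) * fc p F S ^ 2
      = ∑ i : ι, if i ∈ S then fc p F S ^ 2 else 0 := by
    intro S
    rw [Finset.sum_ite_mem, Finset.univ_inter, Finset.sum_const, nsmul_eq_mul]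
  rw [Finset.sum_congr rfl (fun S _ => e1 S), Finset.sum_comm]
  apply Finset.sum_congr rfl
  intro i _
  rw [← sum_mem_sq h0 h1 F hF hmono i, sum_split i]
  have z1 : ∑ T ∈ univ.filter (fun T : Finset ι => i ∉ T),
      (if i ∈ T then fc p F T ^ 2 else 0) = 0 := by
    apply Finset.sum_eq_zero
    intro T hT
    rw [if_neg (mem_filter.1 hT).2]
  rw [z1, zero_add]
  apply Finset.sum_congr rfl
  intro T _
  rw [if_pos (Finset.mem_insert_self i T)]

open Classical in
theorem mu_eq_ex {n r : ℕ} (P : Set (HGraph n r)) (p : ℝ) :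
    mu P p = ex p (P.indicator (fun _ => (1 : ℝ))) := by
  unfold mu ex wt bw
  apply Finset.sum_congr rfl
  intro x _
  by_cases hx : x ∈ P
  · rw [if_pos hx, Set.indicator_of_mem hx, mul_one]
  · rw [if_neg hx, Set.indicator_of_notMem hx, mul_zero]

theorem mu_props {n r : ℕ} (P : Set (HGraph n r)) (hinc : Increasing P) (hne : P.Nonempty)
    (hnu : P ≠ Set.univ) :
    Continuous (mu P) ∧ MonotoneOn (mu P) (Set.Icc 0 1) ∧ mu P 0 = 0 ∧ mu P 1 = 1 := by
  classical
  have hcont : Continuous (mu P) := by
    unfold mu
    apply continuous_finsetSum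
    intro x _
    split_ifs
    · apply continuous_finsetProd
      intro e _
      split_ifs <;> fun_prop
    · exact continuous_const
  set F : (Edge n r → Bool) → ℝ := P.indicator (fun _ => (1 : ℝ)) with hF
  have hF01 : ∀ x, F x = 0 ∨ F x = 1 := by
    intro x
    by_cases hx : x ∈ P
    · right; rw [hF, Set.indicator_of_mem hx]
    · left; rw [hF, Set.indicator_of_notMem hx]
  have hmono : ∀ x y : Edge n r → Bool, (∀ i, x i = true → y i = true) → F x ≤ F y := by
    intro x y hxy
    by_cases hx : x ∈ P
    · have hy : y ∈ P := hinc x y hxy hx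
      rw [hF, Set.indicator_of_mem hx, Set.indicator_of_mem hy]
    · rw [hF, Set.indicator_of_notMem hx]
      exact Set.indicator_nonneg (fun _ _ => zero_le_one) y
  have hmu : mu P = fun q => ex q F := funext (fun q => mu_eq_ex P q)
  refine ⟨hcont, ?_, ?_, ?_⟩
  · apply monotoneOn_of_deriv_nonneg (convex_Icc 0 1) hcont.continuousOn
    · rw [interior_Icc]
      intro p hp
      rw [hmu]
      exact (hasDerivAt_ex hp.1 hp.2 F).differentiableAt.differentiableWithinAt
    · rw [interior_Icc]
      intro p hp
      rw [hmu, (hasDerivAt_ex hp.1 hp.2 F).deriv]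
      have h2 := sum_card_mul_sq hp.1 hp.2 F hF01 hmono
      have hsd := sd_pos hp.1 hp.2
      have h3 : 0 ≤ sd p * ∑ i, fc p F {i} := by
        rw [← h2]
        exact Finset.sum_nonneg (fun S _ => by positivity)
      exact div_nonneg (nonneg_of_mul_nonneg_right h3 hsd) hsd.le
  · have hmem : (fun _ => false : HGraph n r) ∉ P := by
      intro h
      apply hnu
      rw [Set.eq_univ_iff_forall]
      intro x
      exact hinc _ x (fun e he => by simp at he) h
    unfold mu
    apply Finset.sum_eq_zero
    intro x _
    by_cases hx : x ∈ P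
    · rw [if_pos hx]
      obtain ⟨e, he⟩ : ∃ e, x e = true := by
        by_contra hcon
        push Not at hcon
        apply hmem
        have : x = fun _ => false := by
          funext e
          have := hcon e
          simpa using this
        rw [← this]
        exact hx
      apply Finset.prod_eq_zero (Finset.mem_univ e)
      rw [if_pos he]
    · rw [if_neg hx]
  · have hmem : (fun _ => true : HGraph n r) ∈ P := by
      obtain ⟨x, hx⟩ := hne
      exact hinc x _ (fun _ _ => rfl) hx
    unfold mu
    rw [Finset.sum_eq_single (fun _ => true : HGraph n r)]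
    · rw [if_pos hmem]
      simp
    · intro x _ hx
      by_cases hxP : x ∈ P
      · rw [if_pos hxP]
        obtain ⟨e, he⟩ : ∃ e, x e = false := by
          by_contra hcon
          push Not at hcon
          apply hx
          funext e
          have := hcon e
          simpa using this
        apply Finset.prod_eq_zero (Finset.mem_univ e)
        rw [he]
        simp
      · rw [if_neg hxP]
    · intro h
      exact absurd (Finset.mem_univ _) h

end Vale.Agent.P063
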