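import Mathlib

/-!
From a differential inequality to the width of the transition window.
-/

set_option autoImplicit false

namespace Vale.Agent.P063

theorem width_le_of_deriv (f f' : ℝ → ℝ) (hc : ContinuousOn f (Set.Icc 0 1))
    (hm : MonotoneOn f (Set.Icc 0 1)) (h0 : f 0 = 0) (h1 : f 1 = 1)
    (hd : ∀ p ∈ Set.Ioo (0:ℝ) 1, HasDerivAt f (f' p) p) (Λ : ℝ) (hΛ : 0 < Λ)
    (hdi : ∀ p ∈ Set.Ioo (0:ℝ) 1, Λ * (f p * (1 - f p)) ≤ f' p) (ε : ℝ) (hε : 0 < ε)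
    (hε' : ε < 1 / 2) :
    sInf {p : ℝ | p ∈ Set.Icc (0:ℝ) 1 ∧ 1 - ε ≤ f p}
      - sInf {p : ℝ | p ∈ Set.Icc (0:ℝ) 1 ∧ ε ≤ f p} ≤ 1 / (ε * (1 - ε) * Λ) := by
  set Sa : Set ℝ := {p : ℝ | p ∈ Set.Icc (0:ℝ) 1 ∧ ε ≤ f p} with hSa
  set Sb : Set ℝ := {p : ℝ | p ∈ Set.Icc (0:ℝ) 1 ∧ 1 - ε ≤ f p} with hSb
  have hpos : 0 < ε * (1 - ε) * Λ := by
    have : 0 < 1 - ε := by linarith
    positivity
  have h1a : (1:ℝ) ∈ Sa := ⟨⟨zero_le_one, le_refl _⟩, by rw [h1]; linarith⟩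
  have h1b : (1:ℝ) ∈ Sb := ⟨⟨zero_le_one, le_refl _⟩, by rw [h1]; linarith⟩
  have hba : BddBelow Sa := ⟨0, fun p hp => hp.1.1⟩
  have hbb : BddBelow Sb := ⟨0, fun p hp => hp.1.1⟩
  set a := sInf Sa with ha
  set b := sInf Sb with hb
  have ha0 : 0 ≤ a := le_csInf ⟨1, h1a⟩ fun p hp => hp.1.1
  have hb1 : b ≤ 1 := csInf_le hbb h1b
  by_cases hab : b ≤ a
  · have : b - a ≤ 0 := by linarith
    exact this.trans (by positivity)
  push Not at hab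
  have hmid : ∀ p, a < p → p < b → ε ≤ f p ∧ f p ≤ 1 - ε := by
    intro p hap hpb
    have hpI : p ∈ Set.Icc (0:ℝ) 1 := ⟨by linarith, by linarith⟩
    constructor
    · obtain ⟨q, hq, hqp⟩ := exists_lt_of_csInf_lt ⟨1, h1a⟩ hap
      exact hq.2.trans (hm hq.1 hpI hqp.le)
    · by_contra hcon
      push Not at hcon
      have : p ∈ Sb := ⟨hpI, hcon.le⟩
      have := csInf_le hbb this
      linarith
  have hsub : Set.Icc a b ⊆ Set.Icc 0 1 := Set.Icc_subset_Icc ha0 hb1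
  have hmul : ε * (1 - ε) * Λ * (b - a) ≤ f b - f a := by
    apply Convex.mul_sub_le_image_sub_of_le_deriv (convex_Icc a b) (hc.mono hsub)
    · rw [interior_Icc]
      intro p hp
      exact (hd p ⟨by linarith [hp.1], by linarith [hp.2]⟩).differentiableAt.differentiableWithinAt
    · rw [interior_Icc]
      intro p hp
      have hp01 : p ∈ Set.Ioo (0:ℝ) 1 := ⟨by linarith [hp.1], by linarith [hp.2]⟩
      rw [(hd p hp01).deriv]
      refine le_trans ?_ (hdi p hp01)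
      obtain ⟨h2, h3⟩ := hmid p hp.1 hp.2
      have h4 : ε * (1 - ε) ≤ f p * (1 - f p) := by nlinarith
      calc ε * (1 - ε) * Λ = Λ * (ε * (1 - ε)) := by ring
        _ ≤ Λ * (f p * (1 - f p)) := mul_le_mul_of_nonneg_left h4 hΛ.le
    · exact Set.left_mem_Icc.mpr hab.le
    · exact Set.right_mem_Icc.mpr hab.le
    · exact hab.le
  have hfa : 0 ≤ f a := by
    rw [← h0]
    exact hm ⟨le_refl _, zero_le_one⟩ ⟨ha0, by linarith⟩ ha0
  have hfb : f b ≤ 1 := by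
    rw [← h1]
    exact hm ⟨by linarith, hb1⟩ ⟨zero_le_one, le_refl _⟩ hb1
  rw [le_div_iff₀ hpos]
  calc (b - a) * (ε * (1 - ε) * Λ) = ε * (1 - ε) * Λ * (b - a) := by ring
    _ ≤ f b - f a := hmul
    _ ≤ 1 := by linarith

end Vale.Agent.P063
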