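import Vale.Agent.Lib.P063.Mass
import Vale.Agent.Lib.P063.Russo
import Vale.Agent.Lib.P063.Width

/-!
The threshold width of hypergraph properties.
-/

set_option autoImplicit false

namespace Vale.Agent.P063

open Finset

lemma rpow_le_sq {L θ : ℝ} (hL : 1 ≤ L) (hθ : θ ≤ 2) : L ^ θ ≤ L ^ 2 := by
  rw [← Real.rpow_natCast L 2]
  exact Real.rpow_le_rpow_of_exponent_le hL (by exact_mod_cast hθ)

/-- The small density case. -/
lemma num_small {L s θ : ℝ} (hL : 0 < L) (hs : 0 < s) (hθ1 : 0 ≤ θ) (hθ : θ ≤ 2)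
    (hLK : L < 4 * Real.log (2 / s)) : s ^ 2 * L ^ θ ≤ 32 := by
  have hK : 0 < 2 / s := by positivity
  have h1 : Real.exp (L / 2) < (2 / s) ^ 2 := by
    calc Real.exp (L / 2) < Real.exp (2 * Real.log (2 / s)) := Real.exp_lt_exp.mpr (by linarith)
      _ = (2 / s) ^ 2 := by
        rw [two_mul, Real.exp_add, Real.exp_log hK, sq]
  have h2 : s ^ 2 * Real.exp (L / 2) ≤ 4 := by
    have : s ^ 2 * (2 / s) ^ 2 = 4 := by field_simp; norm_num
    calc s ^ 2 * Real.exp (L / 2) ≤ s ^ 2 * (2 / s) ^ 2 :=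
          mul_le_mul_of_nonneg_left h1.le (by positivity)
      _ = 4 := this
  have h3 : L ^ θ ≤ 8 * Real.exp (L / 2) := by
    rcases le_total 1 L with h | h
    · refine (rpow_le_sq h hθ).trans ?_
      have := Real.quadratic_le_exp_of_nonneg (x := L / 2) (by linarith)
      nlinarith
    · have h4 : L ^ θ ≤ 1 := Real.rpow_le_one hL.le h hθ1
      have h5 : 1 ≤ Real.exp (L / 2) := Real.one_le_exp (by linarith)
      linarith
  calc s ^ 2 * L ^ θ ≤ s ^ 2 * (8 * Real.exp (L / 2)) := mul_le_mul_of_nonneg_left h3 (by positivity)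
    _ = 8 * (s ^ 2 * Real.exp (L / 2)) := by ring
    _ ≤ 32 := by linarith

/-- The main case. -/
lemma num_main {L s θ ρ : ℝ} {k : ℕ} (hs : 0 < s) (hs2 : s ≤ 1 / 2) (hρ : 0 ≤ ρ)
    (hθ1 : 0 ≤ θ) (hθ : θ ≤ 2) (hk : 1 ≤ k) (hk1 : (k : ℝ) ≤ L / (4 * Real.log (2 / s)))
    (hk2 : L / (4 * Real.log (2 / s)) < k + 1) :
    s ^ 2 * (ρ / (k : ℝ) ^ θ + 32 * k ^ 3 / Real.exp (L / 2) * (2 / s) ^ k) * L ^ θ
      ≤ 256 * ρ + 15360 ∧ 2 * (k : ℝ) ^ 2 ≤ Real.exp L := by
  have hK : 0 < 2 / s := by positivity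
  have hK4 : 4 ≤ 2 / s := by rw [le_div_iff₀ hs]; linarith
  have hk0 : (0:ℝ) < k := by exact_mod_cast hk
  have hk1' : (1:ℝ) ≤ k := by exact_mod_cast hk
  set ℓ : ℝ := Real.log (2 / s) with hℓ
  have hℓ1 : 1 ≤ ℓ := by
    rw [hℓ, Real.le_log_iff_exp_le hK]
    have := Real.exp_one_lt_d9
    linarith
  have hℓK : ℓ ≤ 2 / s := (Real.log_le_sub_one_of_pos hK).trans (by linarith)
  have h4ℓ : 0 < 4 * ℓ := by linarith
  have hLk : 4 * ℓ * k ≤ L := by
    rw [le_div_iff₀ h4ℓ] at hk1; linarith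
  have hL4 : 4 ≤ L := by nlinarith
  have hL0 : 0 < L := by linarith
  have hkL : (k:ℝ) ≤ L / 4 := by nlinarith
  have hLk2 : L ≤ 8 * ℓ * k := by
    rw [div_lt_iff₀ h4ℓ] at hk2; nlinarith
  have hLθ : 0 < L ^ θ := Real.rpow_pos_of_pos hL0 θ
  have hkθ : 0 < (k:ℝ) ^ θ := Real.rpow_pos_of_pos hk0 θ
  constructor
  · -- first term
    have t1 : s ^ 2 * (ρ / (k : ℝ) ^ θ) * L ^ θ ≤ 256 * ρ := by
      have a1 : L ^ θ ≤ (8 * ℓ) ^ 2 * (k:ℝ) ^ θ := by
        calc L ^ θ ≤ (8 * ℓ * k) ^ θ := Real.rpow_le_rpow hL0.le hLk2 hθ1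
          _ = (8 * ℓ) ^ θ * (k:ℝ) ^ θ := Real.mul_rpow (by linarith) hk0.le
          _ ≤ (8 * ℓ) ^ 2 * (k:ℝ) ^ θ :=
            mul_le_mul_of_nonneg_right (rpow_le_sq (by linarith) hθ) hkθ.le
      have a2 : s * ℓ ≤ 2 := by
        calc s * ℓ ≤ s * (2 / s) := mul_le_mul_of_nonneg_left hℓK hs.le
          _ = 2 := by field_simp
      have a3 : (s * ℓ) ^ 2 ≤ 4 := by
        have : 0 ≤ s * ℓ := by positivity
        nlinarith
      calc s ^ 2 * (ρ / (k : ℝ) ^ θ) * L ^ θ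
          ≤ s ^ 2 * (ρ / (k : ℝ) ^ θ) * ((8 * ℓ) ^ 2 * (k:ℝ) ^ θ) :=
            mul_le_mul_of_nonneg_left a1 (by positivity)
        _ = 64 * ρ * (s * ℓ) ^ 2 := by field_simp; ring
        _ ≤ 64 * ρ * 4 := mul_le_mul_of_nonneg_left a3 (by positivity)
        _ = 256 * ρ := by ring
    have t2 : s ^ 2 * (32 * k ^ 3 / Real.exp (L / 2) * (2 / s) ^ k) * L ^ θ ≤ 15360 := by
      have b1 : (2 / s) ^ k ≤ Real.exp (L / 4) := by
        rw [← Real.exp_log hK, ← Real.exp_nat_mul]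
        apply Real.exp_le_exp.mpr
        rw [← hℓ]; linarith
      have b2 : L ^ 5 ≤ 122880 * Real.exp (L / 4) := by
        have := Real.pow_div_factorial_le_exp (L / 4) (by linarith) 5
        have h5 : ((5:ℕ).factorial : ℝ) = 120 := by norm_num [Nat.factorial]
        rw [h5, div_le_iff₀ (by norm_num)] at this
        have h6 : (L / 4) ^ 5 = L ^ 5 / 1024 := by ring
        rw [h6, div_le_iff₀ (by norm_num)] at this
        linarith
      have b3 : s ^ 2 ≤ 1 / 4 := by nlinarith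
      have b4 : (k:ℝ) ^ 3 ≤ L ^ 3 / 64 := by
        calc (k:ℝ) ^ 3 ≤ (L / 4) ^ 3 := pow_le_pow_left₀ hk0.le hkL 3
          _ = L ^ 3 / 64 := by ring
      have b5 : Real.exp (L / 2) = Real.exp (L / 4) * Real.exp (L / 4) := by
        rw [← Real.exp_add]; congr 1; ring
      have hE : 0 < Real.exp (L / 4) := Real.exp_pos _
      have b6 : (32 * (k:ℝ) ^ 3 / Real.exp (L / 2) * (2 / s) ^ k)
          ≤ L ^ 3 / 2 / Real.exp (L / 4) := by
        calc (32 * (k:ℝ) ^ 3 / Real.exp (L / 2) * (2 / s) ^ k)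
            ≤ (32 * (L ^ 3 / 64) / Real.exp (L / 2)) * Real.exp (L / 4) := by
              apply mul_le_mul _ b1 (by positivity) (by positivity)
              apply div_le_div_of_nonneg_right _ (Real.exp_pos _).le
              linarith
          _ = L ^ 3 / 2 / Real.exp (L / 4) := by rw [b5]; field_simp; ring
      calc s ^ 2 * (32 * k ^ 3 / Real.exp (L / 2) * (2 / s) ^ k) * L ^ θ
          ≤ (1 / 4) * (L ^ 3 / 2 / Real.exp (L / 4)) * L ^ 2 := by
            apply mul_le_mul _ (rpow_le_sq (by linarith) hθ) hLθ.le (by positivity)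
            exact mul_le_mul b3 b6 (by positivity) (by norm_num)
        _ = L ^ 5 / (8 * Real.exp (L / 4)) := by field_simp; ring
        _ ≤ 15360 := by
            rw [div_le_iff₀ (by positivity)]
            linarith
    calc s ^ 2 * (ρ / (k : ℝ) ^ θ + 32 * k ^ 3 / Real.exp (L / 2) * (2 / s) ^ k) * L ^ θ
        = s ^ 2 * (ρ / (k : ℝ) ^ θ) * L ^ θ
          + s ^ 2 * (32 * k ^ 3 / Real.exp (L / 2) * (2 / s) ^ k) * L ^ θ := by ring
      _ ≤ _ := add_le_add t1 t2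
  · have := Real.quadratic_le_exp_of_nonneg hL0.le
    nlinarith

variable {n r : ℕ}

/-- The differential inequality. -/
theorem diff_ineq (hr : 2 ≤ r) (hn : r ≤ n) (P : Set (HGraph n r)) (hprop : IsProperty P)
    (hinc : Increasing P) {p : ℝ} (h0 : 0 < p) (h1 : p < 1) :
    ∃ D : ℝ, HasDerivAt (mu P) D p ∧
      (Real.log n) ^ ((r : ℝ) / ((r : ℝ) - 1)) / (16384 * r) * (mu P p * (1 - mu P p)) ≤ D := by
  classical
  set F : HGraph n r → ℝ := P.indicator (fun _ => (1:ℝ)) with hFdef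
  have hF : ∀ x, F x = 0 ∨ F x = 1 := by
    intro x
    by_cases hx : x ∈ P
    · right; rw [hFdef, Set.indicator_of_mem hx]
    · left; rw [hFdef, Set.indicator_of_notMem hx]
  have hinv : ∀ (σ : Equiv.Perm (Fin n)) (x : HGraph n r), F (fun e => x (permEdge σ e)) = F x := by
    intro σ x
    by_cases hx : x ∈ P
    · rw [hFdef, Set.indicator_of_mem hx, Set.indicator_of_mem ((hprop σ x).mpr hx)]
    · rw [hFdef, Set.indicator_of_notMem hx,
        Set.indicator_of_notMem (fun h => hx ((hprop σ x).mp h))]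
  have hmono : ∀ x y : HGraph n r, (∀ e, x e = true → y e = true) → F x ≤ F y := by
    intro x y hxy
    by_cases hx : x ∈ P
    · rw [hFdef, Set.indicator_of_mem hx, Set.indicator_of_mem (hinc x y hxy hx)]
    · rw [hFdef, Set.indicator_of_notMem hx]
      exact Set.indicator_nonneg (fun _ _ => zero_le_one) y
  have hmu : ∀ q, mu P q = ex q F := fun q => mu_eq_ex P q
  have hderiv := hasDerivAt_ex h0 h1 F
  have hs := sd_pos h0 h1
  have hs2 := sd_le_half h0 h1
  set D : ℝ := (∑ i, fc p F {i}) / sd p with hD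
  refine ⟨D, ?_, ?_⟩
  · have : mu P = fun q => ex q F := funext hmu
    rw [this]; exact hderiv
  have hJ := sum_card_mul_sq h0 h1 F hF hmono
  set J : ℝ := ∑ S : Finset (Edge n r), (S.card : ℝ) * fc p F S ^ 2 with hJdef
  have hJ0 : 0 ≤ J := sum_nonneg fun S _ => mul_nonneg (Nat.cast_nonneg _) (sq_nonneg _)
  have hJD : J = sd p ^ 2 * D := by rw [hJ, hD]; field_simp
  have hD0 : 0 ≤ D := by
    have h2 : 0 < sd p ^ 2 := by positivity
    rw [hJD] at hJ0
    exact nonneg_of_mul_nonneg_right hJ0 h2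
  have hr0 : (2:ℝ) ≤ r := by exact_mod_cast hr
  have hn2 : 2 ≤ n := le_trans hr hn
  have hnR : (1:ℝ) < n := by exact_mod_cast (lt_of_lt_of_le one_lt_two hn2)
  have hL : 0 < Real.log n := Real.log_pos hnR
  set θ : ℝ := (r : ℝ) / ((r : ℝ) - 1) with hθdef
  have hθ0 : 0 ≤ θ := div_nonneg (by linarith) (by linarith)
  have hθ2 : θ ≤ 2 := by rw [hθdef, div_le_iff₀ (by linarith)]; linarith
  have hLθ : 0 < Real.log n ^ θ := Real.rpow_pos_of_pos hL θ
  have hexpL : Real.exp (Real.log n) = n := Real.exp_log (by linarith)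
  have hexpL2 : Real.exp (Real.log n / 2) = Real.sqrt n := by
    rw [Real.exp_half, hexpL]
  -- it suffices to bound the constant
  have hsuff : ∀ B : ℝ, ex p F * (1 - ex p F) ≤ B * J → sd p ^ 2 * B * Real.log n ^ θ ≤ 16384 * r →
      Real.log n ^ θ / (16384 * r) * (mu P p * (1 - mu P p)) ≤ D := by
    intro B hB hB2
    rw [hmu, div_mul_eq_mul_div, div_le_iff₀ (by positivity)]
    calc Real.log n ^ θ * (ex p F * (1 - ex p F)) ≤ Real.log n ^ θ * (B * J) :=
          mul_le_mul_of_nonneg_left hB hLθ.le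
      _ = (sd p ^ 2 * B * Real.log n ^ θ) * D := by rw [hJD]; ring
      _ ≤ (16384 * r) * D := mul_le_mul_of_nonneg_right hB2 hD0
      _ = D * (16384 * r) := by ring
  have hlogK : 0 < 4 * Real.log (2 / sd p) := by
    have : 1 < 2 / sd p := by rw [lt_div_iff₀ hs]; linarith
    have := Real.log_pos this
    linarith
  by_cases hk : Real.log n < 4 * Real.log (2 / sd p)
  · apply hsuff 1
    · rw [var_eq h0 h1 F hF, one_mul, hJdef]
      refine le_trans ?_ (sum_le_sum_of_subset_of_nonneg (subset_univ (univ.erase ∅))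
        (fun S _ _ => mul_nonneg (Nat.cast_nonneg _) (sq_nonneg _)))
      apply sum_le_sum
      intro S hS
      have hSne : S.Nonempty := nonempty_iff_ne_empty.mpr (mem_erase.mp hS).1
      have : (1:ℝ) ≤ S.card := by exact_mod_cast hSne.card_pos
      nlinarith [sq_nonneg (fc p F S)]
    · have := num_small hL hs hθ0 hθ2 hk
      rw [mul_one]
      linarith
  · push Not at hk
    set k : ℕ := ⌊Real.log n / (4 * Real.log (2 / sd p))⌋₊ with hkdef
    have hx0 : 0 ≤ Real.log n / (4 * Real.log (2 / sd p)) := by positivity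
    have hk1 : (k:ℝ) ≤ Real.log n / (4 * Real.log (2 / sd p)) := Nat.floor_le hx0
    have hk2 : Real.log n / (4 * Real.log (2 / sd p)) < k + 1 := Nat.lt_floor_add_one _
    have hk1' : 1 ≤ k := by
      rw [hkdef, Nat.one_le_floor_iff]
      rw [le_div_iff₀ hlogK]; linarith
    obtain ⟨hnum, hnum2⟩ := num_main (ρ := r) hs hs2 (by linarith) hθ0 hθ2 hk1' hk1 hk2
    rw [hexpL] at hnum2
    rw [hexpL2] at hnum
    have hkn : 2 * k ^ 2 ≤ n := by exact_mod_cast hnum2
    apply hsuff _ (var_le hr h0 h1 F hF hinv k hk1' hkn)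
    linarith

/-- The threshold width. -/
theorem width_bound (hr : 2 ≤ r) (hn : r ≤ n) (P : Set (HGraph n r)) (hprop : IsProperty P)
    (hinc : Increasing P) (hne : P.Nonempty) (hnu : P ≠ Set.univ) (ε : ℝ) (hε : 0 < ε)
    (hε' : ε < 1 / 2) :
    width P ε ≤ 16384 * r / (ε * (1 - ε)) * (Real.log n) ^ (-((r : ℝ) / ((r : ℝ) - 1))) := by
  obtain ⟨hcont, hmono, hz, ho⟩ := mu_props P hinc hne hnu
  have hr0 : (2:ℝ) ≤ r := by exact_mod_cast hr
  have hn2 : 2 ≤ n := le_trans hr hn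
  have hnR : (1:ℝ) < n := by exact_mod_cast (lt_of_lt_of_le one_lt_two hn2)
  have hL : 0 < Real.log n := Real.log_pos hnR
  have hLθ : 0 < Real.log n ^ ((r : ℝ) / ((r : ℝ) - 1)) := Real.rpow_pos_of_pos hL _
  have hch : ∀ p : ℝ, ∃ D : ℝ, p ∈ Set.Ioo (0:ℝ) 1 → HasDerivAt (mu P) D p ∧
      (Real.log n) ^ ((r : ℝ) / ((r : ℝ) - 1)) / (16384 * r) * (mu P p * (1 - mu P p)) ≤ D := by
    intro p
    by_cases hp : p ∈ Set.Ioo (0:ℝ) 1
    · obtain ⟨D, hD⟩ := diff_ineq hr hn P hprop hinc hp.1 hp.2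
      exact ⟨D, fun _ => hD⟩
    · exact ⟨0, fun h => absurd h hp⟩
  choose f' hf' using hch
  have hmain := width_le_of_deriv (mu P) f' hcont.continuousOn hmono hz ho
    (fun p hp => (hf' p hp).1)
    ((Real.log n) ^ ((r : ℝ) / ((r : ℝ) - 1)) / (16384 * r)) (by positivity)
    (fun p hp => (hf' p hp).2) ε hε hε'
  unfold width pcrit
  refine hmain.trans (le_of_eq ?_)
  rw [Real.rpow_neg hL.le]
  have : 0 < 1 - ε := by linarith
  field_simp

end Vale.Agent.P063
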