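import Vale.Agent.Lib.P063.Hyper

/-!
The variance of a hypergraph property is small compared with its total influence.
-/

set_option autoImplicit false

namespace Vale.Agent.P063

open Finset

variable {n r : ℕ} {p : ℝ}

/-- Averaging over the vertex set `A`. -/
theorem low_mass (h0 : 0 < p) (h1 : p < 1) (F : HGraph n r → ℝ)
    (hF : ∀ x, F x = 0 ∨ F x = 1)
    (hinv : ∀ (σ : Equiv.Perm (Fin n)) (x : HGraph n r), F (fun e => x (permEdge σ e)) = F x)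
    (k u m : ℕ) (hm : 1 ≤ m) (hum : 2 * u * m ≤ n) (hmn : m ≤ n)
    (𝒮 : Finset (Finset (Edge n r)))
    (h𝒮 : ∀ S ∈ 𝒮, (verts S).card ≤ u ∧ ∃ a ∈ verts S, deg S a ≤ k) :
    ∑ S ∈ 𝒮, fc p F S ^ 2
      ≤ 4 * (n / (m * Real.sqrt m)) * (2 / sd p) ^ k
        * ∑ S : Finset (Edge n r), (S.card : ℝ) * fc p F S ^ 2 := by
  have hs := sd_pos h0 h1
  set J : ℝ := ∑ S : Finset (Edge n r), (S.card : ℝ) * fc p F S ^ 2 with hJ
  have hJ0 : 0 ≤ J := sum_nonneg fun S _ => by positivity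
  set K : ℝ := (2 / sd p) ^ k with hK
  have hK0 : 0 ≤ K := by positivity
  have hm0 : (0:ℝ) < m := by exact_mod_cast hm
  have hsm : 0 < Real.sqrt m := Real.sqrt_pos.mpr hm0
  have hn : 1 ≤ n := le_trans hm hmn
  have : Nonempty (Fin n) := ⟨⟨0, hn⟩⟩
  have hch : ∀ S : Finset (Edge n r), ∃ a : Fin n, S ∈ 𝒮 → a ∈ verts S ∧ deg S a ≤ k := by
    intro S
    by_cases hS : S ∈ 𝒮
    · obtain ⟨a, ha⟩ := (h𝒮 S hS).2
      exact ⟨a, fun _ => ha⟩
    · exact ⟨Classical.arbitrary _, fun h => absurd h hS⟩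
  choose v hv using hch
  set 𝒜 := (univ : Finset (Fin n)).powersetCard m with h𝒜
  have hcard𝒜 : 𝒜.card = n.choose m := by rw [h𝒜, card_powersetCard, card_univ, Fintype.card_fin]
  have hchpos : (0:ℝ) < n.choose m := by exact_mod_cast Nat.choose_pos hmn
  have hA : ∀ A ∈ 𝒜, ∑ S ∈ 𝒮.filter (fun S => A ∩ verts S = {v S}), fc p F S ^ 2
      ≤ 2 * K * (1 / Real.sqrt m) * J := by
    intro A hA
    have hAc : A.card = m := (mem_powersetCard.mp hA).2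
    have hAne : A.Nonempty := by rw [← card_pos, hAc]; exact hm
    have := low_mass_A h0 h1 F hF hinv A hAne k 𝒮 v (fun S hS => hv S hS)
    rw [hAc] at this
    exact this
  have hsum : ∑ A ∈ 𝒜, ∑ S ∈ 𝒮.filter (fun S => A ∩ verts S = {v S}), fc p F S ^ 2
      ≤ (n.choose m : ℝ) * (2 * K * (1 / Real.sqrt m) * J) := by
    refine (sum_le_sum hA).trans (le_of_eq ?_)
    rw [sum_const, hcard𝒜, nsmul_eq_mul]
  have hswap : ∑ A ∈ 𝒜, ∑ S ∈ 𝒮.filter (fun S => A ∩ verts S = {v S}), fc p F S ^ 2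
      = ∑ S ∈ 𝒮, ((𝒜.filter (fun A => A ∩ verts S = {v S})).card : ℝ) * fc p F S ^ 2 := by
    simp only [sum_filter]
    rw [sum_comm]
    apply sum_congr rfl
    intro S _
    rw [← sum_filter, sum_const, nsmul_eq_mul]
  have hcount : ∀ S ∈ 𝒮, (m : ℝ) * n.choose m
      ≤ 2 * n * ((𝒜.filter (fun A => A ∩ verts S = {v S})).card : ℝ) := by
    intro S hS
    have := count_sets hm hum (verts S) (h𝒮 S hS).1 (v S) (hv S hS).1
    exact_mod_cast this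
  have hlow : (m : ℝ) * n.choose m * ∑ S ∈ 𝒮, fc p F S ^ 2
      ≤ 2 * n * ∑ S ∈ 𝒮, ((𝒜.filter (fun A => A ∩ verts S = {v S})).card : ℝ) * fc p F S ^ 2 := by
    rw [mul_sum, mul_sum]
    apply sum_le_sum
    intro S hS
    calc (m : ℝ) * n.choose m * fc p F S ^ 2
        ≤ (2 * n * ((𝒜.filter (fun A => A ∩ verts S = {v S})).card : ℝ)) * fc p F S ^ 2 :=
          mul_le_mul_of_nonneg_right (hcount S hS) (sq_nonneg _)
      _ = _ := by ring
  rw [hswap] at hsum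
  have hfin : (m : ℝ) * n.choose m * ∑ S ∈ 𝒮, fc p F S ^ 2
      ≤ 2 * n * ((n.choose m : ℝ) * (2 * K * (1 / Real.sqrt m) * J)) :=
    hlow.trans (mul_le_mul_of_nonneg_left hsum (by positivity))
  have hfin2 : ((n.choose m : ℝ) * m) * ∑ S ∈ 𝒮, fc p F S ^ 2
      ≤ ((n.choose m : ℝ) * m) * (4 * (n / (m * Real.sqrt m)) * K * J) := by
    calc ((n.choose m : ℝ) * m) * ∑ S ∈ 𝒮, fc p F S ^ 2
        = (m : ℝ) * n.choose m * ∑ S ∈ 𝒮, fc p F S ^ 2 := by ring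
      _ ≤ 2 * n * ((n.choose m : ℝ) * (2 * K * (1 / Real.sqrt m) * J)) := hfin
      _ = _ := by field_simp; ring
  exact le_of_mul_le_mul_left hfin2 (by positivity)

/-- The edge sets with many edges. -/
theorem high_mass (hr : 2 ≤ r) (F : HGraph n r → ℝ) (k : ℕ) (hk : 1 ≤ k)
    (ℋ : Finset (Finset (Edge n r)))
    (hℋ : ∀ S ∈ ℋ, ¬ (r * S.card) ^ (r - 1) < k ^ r) :
    ∑ S ∈ ℋ, fc p F S ^ 2
      ≤ r / (k : ℝ) ^ ((r : ℝ) / ((r : ℝ) - 1))
        * ∑ S : Finset (Edge n r), (S.card : ℝ) * fc p F S ^ 2 := by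
  have hk0 : (0:ℝ) < k := by exact_mod_cast hk
  have hr1 : (1:ℝ) ≤ (r:ℝ) - 1 := by
    have : (2:ℝ) ≤ r := by exact_mod_cast hr
    linarith
  have hkθ : 0 < (k : ℝ) ^ ((r : ℝ) / ((r : ℝ) - 1)) := Real.rpow_pos_of_pos hk0 _
  have key : ∀ S ∈ ℋ, fc p F S ^ 2
      ≤ r / (k : ℝ) ^ ((r : ℝ) / ((r : ℝ) - 1)) * ((S.card : ℝ) * fc p F S ^ 2) := by
    intro S hS
    have h2 := hℋ S hS
    push Not at h2
    have h3 : ((k:ℝ) ^ ((r : ℝ) / ((r : ℝ) - 1))) ≤ r * S.card := by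
      have h4 : ((k:ℝ)) ^ r ≤ (r * S.card : ℝ) ^ (r - 1) := by exact_mod_cast h2
      have h5 : ((k:ℝ) ^ ((r : ℝ) / ((r : ℝ) - 1))) ^ (r - 1 : ℕ) = (k:ℝ) ^ r := by
        rw [← Real.rpow_natCast _ (r - 1), ← Real.rpow_mul hk0.le]
        have : (r : ℝ) / ((r : ℝ) - 1) * ((r - 1 : ℕ) : ℝ) = r := by
          rw [Nat.cast_sub (by omega : 1 ≤ r), Nat.cast_one]
          field_simp
        rw [this, Real.rpow_natCast]
      rw [← h5] at h4
      exact (pow_le_pow_iff_left₀ hkθ.le (by positivity) (by omega)).mp h4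
    have h6 : 1 ≤ r / (k : ℝ) ^ ((r : ℝ) / ((r : ℝ) - 1)) * S.card := by
      rw [div_mul_eq_mul_div, le_div_iff₀ hkθ, one_mul]
      exact h3
    calc fc p F S ^ 2 = 1 * fc p F S ^ 2 := by ring
      _ ≤ (r / (k : ℝ) ^ ((r : ℝ) / ((r : ℝ) - 1)) * S.card) * fc p F S ^ 2 :=
          mul_le_mul_of_nonneg_right h6 (sq_nonneg _)
      _ = _ := by ring
  have hle : ∑ S ∈ ℋ, (S.card : ℝ) * fc p F S ^ 2
      ≤ ∑ S : Finset (Edge n r), (S.card : ℝ) * fc p F S ^ 2 :=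
    Finset.sum_le_sum_of_subset_of_nonneg (subset_univ _)
      (fun S _ _ => mul_nonneg (Nat.cast_nonneg _) (sq_nonneg _))
  calc ∑ S ∈ ℋ, fc p F S ^ 2
      ≤ ∑ S ∈ ℋ, r / (k : ℝ) ^ ((r : ℝ) / ((r : ℝ) - 1)) * ((S.card : ℝ) * fc p F S ^ 2) :=
        sum_le_sum key
    _ = r / (k : ℝ) ^ ((r : ℝ) / ((r : ℝ) - 1)) * ∑ S ∈ ℋ, (S.card : ℝ) * fc p F S ^ 2 := by
        rw [mul_sum]
    _ ≤ _ := mul_le_mul_of_nonneg_left hle (by positivity)

lemma low_factor (k : ℕ) (hk : 1 ≤ k) (hkn : 2 * k ^ 2 ≤ n) :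
    4 * ((n:ℝ) / ((n / (2 * k ^ 2) : ℕ) * Real.sqrt (n / (2 * k ^ 2) : ℕ)))
      ≤ 32 * k ^ 3 / Real.sqrt n := by
  have hk0 : (0:ℝ) < k := by exact_mod_cast hk
  have hn1 : 1 ≤ n := by nlinarith
  have hn0 : (0:ℝ) < n := by exact_mod_cast hn1
  have hk2 : 0 < 2 * k ^ 2 := by positivity
  obtain ⟨m, hm⟩ : ∃ m, m = n / (2 * k ^ 2) := ⟨_, rfl⟩
  have hm1 : 1 ≤ m := by rw [hm]; exact (Nat.one_le_div_iff hk2).mpr hkn
  rw [← hm]
  have hm0 : (0:ℝ) < m := by exact_mod_cast hm1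
  have hmlow : (n:ℝ) / (4 * k ^ 2) ≤ m := by
    have h2 : n < 2 * k ^ 2 * (m + 1) := by
      rw [hm]
      exact Nat.lt_mul_div_succ n hk2
    have h3 : 2 * k ^ 2 * (m + 1) ≤ 4 * k ^ 2 * m := by
      have : 2 * k ^ 2 * 1 ≤ 2 * k ^ 2 * m := Nat.mul_le_mul_left _ hm1
      calc 2 * k ^ 2 * (m + 1) = 2 * k ^ 2 * m + 2 * k ^ 2 * 1 := by ring
        _ ≤ 2 * k ^ 2 * m + 2 * k ^ 2 * m := Nat.add_le_add_left this _
        _ = 4 * k ^ 2 * m := by ring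
    have h4 : (n:ℝ) ≤ 4 * k ^ 2 * m := by exact_mod_cast (h2.le.trans h3)
    rw [div_le_iff₀ (by positivity)]
    linarith
  have hsq : Real.sqrt n / (2 * k) ≤ Real.sqrt m := by
    have : Real.sqrt ((n:ℝ) / (4 * k ^ 2)) = Real.sqrt n / (2 * k) := by
      rw [Real.sqrt_div hn0.le]
      congr 1
      have : (4 * (k:ℝ) ^ 2) = (2 * k) ^ 2 := by ring
      rw [this, Real.sqrt_sq (by positivity)]
    rw [← this]
    exact Real.sqrt_le_sqrt hmlow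
  have hsn : 0 < Real.sqrt n := Real.sqrt_pos.mpr hn0
  have hprod : (n:ℝ) / (4 * k ^ 2) * (Real.sqrt n / (2 * k)) ≤ m * Real.sqrt m :=
    mul_le_mul hmlow hsq (by positivity) hm0.le
  have hpos : 0 < (n:ℝ) / (4 * k ^ 2) * (Real.sqrt n / (2 * k)) := by positivity
  calc 4 * ((n:ℝ) / (m * Real.sqrt m))
      ≤ 4 * ((n:ℝ) / ((n:ℝ) / (4 * k ^ 2) * (Real.sqrt n / (2 * k)))) := by
        apply mul_le_mul_of_nonneg_left _ (by norm_num)
        exact div_le_div_of_nonneg_left hn0.le hpos hprod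
    _ = 32 * k ^ 3 / Real.sqrt n := by field_simp; ring

/-- The variance as a sum over nonempty sets. -/
lemma var_eq (h0 : 0 < p) (h1 : p < 1) (F : HGraph n r → ℝ) (hF : ∀ x, F x = 0 ∨ F x = 1) :
    ex p F * (1 - ex p F) = ∑ S ∈ univ.erase (∅ : Finset (Edge n r)), fc p F S ^ 2 := by
  have e1 : ex p (fun x => F x ^ 2) = ex p F := by
    apply ex_congr
    intro x
    rcases hF x with h | h
    · rw [h]; norm_num
    · rw [h]; norm_num
  have e2 := parseval h0 h1 F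
  rw [e1, ← sum_erase_add univ (fun S => fc p F S ^ 2) (mem_univ ∅), fc_empty] at e2
  linear_combination e2

/-- The main inequality. -/
theorem var_le (hr : 2 ≤ r) (h0 : 0 < p) (h1 : p < 1) (F : HGraph n r → ℝ)
    (hF : ∀ x, F x = 0 ∨ F x = 1)
    (hinv : ∀ (σ : Equiv.Perm (Fin n)) (x : HGraph n r), F (fun e => x (permEdge σ e)) = F x)
    (k : ℕ) (hk : 1 ≤ k) (hkn : 2 * k ^ 2 ≤ n) :
    ex p F * (1 - ex p F)
      ≤ (r / (k : ℝ) ^ ((r : ℝ) / ((r : ℝ) - 1)) + 32 * k ^ 3 / Real.sqrt n * (2 / sd p) ^ k)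
        * ∑ S : Finset (Edge n r), (S.card : ℝ) * fc p F S ^ 2 := by
  have hs := sd_pos h0 h1
  have hJ0 : 0 ≤ ∑ S : Finset (Edge n r), (S.card : ℝ) * fc p F S ^ 2 :=
    sum_nonneg fun S _ => mul_nonneg (Nat.cast_nonneg _) (sq_nonneg _)
  rw [var_eq h0 h1 F hF,
    ← sum_filter_add_sum_filter_not (univ.erase (∅ : Finset (Edge n r)))
      (fun S => (r * S.card) ^ (r - 1) < k ^ r), add_mul, add_comm]
  apply add_le_add
  · exact high_mass hr F k hk _ (fun S hS => (mem_filter.mp hS).2)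
  · have hk2 : 0 < 2 * k ^ 2 := by positivity
    have hm1 : 1 ≤ n / (2 * k ^ 2) := (Nat.one_le_div_iff hk2).mpr hkn
    have hum : 2 * k ^ 2 * (n / (2 * k ^ 2)) ≤ n := Nat.mul_div_le n (2 * k ^ 2)
    have hmn : n / (2 * k ^ 2) ≤ n := Nat.div_le_self _ _
    refine (low_mass h0 h1 F hF hinv k (k ^ 2) (n / (2 * k ^ 2)) hm1 hum hmn _ ?_).trans ?_
    · intro S hS
      obtain ⟨hS1, hS2⟩ := mem_filter.mp hS
      have hSne : S.Nonempty := nonempty_iff_ne_empty.mpr (mem_erase.mp hS1).1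
      refine ⟨?_, exists_low hr S hSne k hS2⟩
      refine (verts_card_le S).trans ?_
      by_contra hcon
      push Not at hcon
      have h3 : k ^ r ≤ (k ^ 2) ^ (r - 1) := by
        rw [← pow_mul]
        exact Nat.pow_le_pow_right hk (by omega)
      have h4 : (k ^ 2) ^ (r - 1) ≤ (r * S.card) ^ (r - 1) := Nat.pow_le_pow_left hcon.le _
      exact absurd hS2 (not_lt.mpr (h3.trans h4))
    · apply mul_le_mul_of_nonneg_right _ hJ0
      exact mul_le_mul_of_nonneg_right (low_factor k hk hkn) (by positivity)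

end Vale.Agent.P063
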